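import Vale.Agent.P159.TM.Spec.I
import Vale.Agent.P159.H353.Wgt

/-!
BOX: the zero boundary condition box of side `n` does not depend on the torus in which it sits.

Torus `ZMod N × ZMod N`, `N ≥ n`, heights pinned to `0` outside the open square
`{x : 1 ≤ x.1.val < n, 1 ≤ x.2.val < n}`.
-/

namespace Vale.Agent.P159.TM.H705

open Finset Vale.Agent.P159.TM.SpecI

/-- the pinned sites: everything outside the open box of side `n` -/
def outB (N : ℕ) [NeZero N] (n : ℕ) : Finset (V N) :=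
  univ.filter fun x => x.1.val = 0 ∨ n ≤ x.1.val ∨ x.2.val = 0 ∨ n ≤ x.2.val

theorem mem_outB {N : ℕ} [NeZero N] {n : ℕ} {x : V N} :
    x ∈ outB N n ↔ (x.1.val = 0 ∨ n ≤ x.1.val ∨ x.2.val = 0 ∨ n ≤ x.2.val) := by
  simp [outB]

/-- the heights in the open box, as a function on `ℕ × ℕ`, `0` outside -/
def ev {N : ℕ} (n : ℕ) (h : V N → ℤ) (i j : ℕ) : ℤ :=
  if 1 ≤ i ∧ i < n ∧ 1 ≤ j ∧ j < n then h ((i : ZMod N), (j : ZMod N)) else 0

/-- transport of a configuration from the torus of side `N` to the torus of side `M` -/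
def mv {N : ℕ} (M n : ℕ) (h : V N → ℤ) : V M → ℤ := fun x => ev n h x.1.val x.2.val

theorem ev_eq {N : ℕ} [NeZero N] {n : ℕ} (_hn : n ≤ N) {h : V N → ℤ}
    (hp : ∀ x ∈ outB N n, h x = 0) {i j : ℕ} (hi : i ≤ N) (hj : j ≤ N) :
    ev n h i j = h ((i : ZMod N), (j : ZMod N)) := by
  unfold ev
  split_ifs with hc
  · rfl
  · symm
    apply hp
    rw [mem_outB]
    by_cases hiN : i = N
    · left; simp [hiN]
    by_cases hjN : j = N
    · right; right; left; simp [hjN]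
    have h1 : ((i : ZMod N)).val = i := ZMod.val_cast_of_lt (by omega)
    have h2 : ((j : ZMod N)).val = j := ZMod.val_cast_of_lt (by omega)
    simp only [h1, h2]
    omega

theorem ev_out {N : ℕ} {n : ℕ} {h : V N → ℤ} {i j : ℕ}
    (hc : i = 0 ∨ n ≤ i ∨ j = 0 ∨ n ≤ j) : ev n h i j = 0 := by
  unfold ev
  rw [if_neg]
  omega

theorem mv_pin {N M : ℕ} [NeZero M] {n : ℕ} (h : V N → ℤ) : ∀ x ∈ outB M n, mv M n h x = 0 := by
  intro x hx
  rw [mem_outB] at hx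
  exact ev_out hx

theorem ev_mv {N M : ℕ} [NeZero M] {n : ℕ} (hn : n ≤ M) (h : V N → ℤ) (i j : ℕ) :
    ev n (mv M n h) i j = ev n h i j := by
  by_cases hc : 1 ≤ i ∧ i < n ∧ 1 ≤ j ∧ j < n
  · have h1 : ((i : ZMod M)).val = i := ZMod.val_cast_of_lt (by omega)
    have h2 : ((j : ZMod M)).val = j := ZMod.val_cast_of_lt (by omega)
    have : ev n (mv M n h) i j = mv M n h ((i : ZMod M), (j : ZMod M)) := by
      unfold ev; rw [if_pos hc]
    rw [this]
    simp only [mv, h1, h2]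
  · have hc' : i = 0 ∨ n ≤ i ∨ j = 0 ∨ n ≤ j := by omega
    rw [ev_out hc', ev_out hc']

theorem mv_mv {N M : ℕ} [NeZero N] [NeZero M] {n : ℕ} (hn : n ≤ N) (hm : n ≤ M) {h : V N → ℤ}
    (hp : ∀ x ∈ outB N n, h x = 0) : mv N n (mv M n h) = h := by
  funext x
  have h1 : mv N n (mv M n h) x = ev n h x.1.val x.2.val := ev_mv hm h _ _
  rw [h1, ev_eq hn hp (ZMod.val_lt _).le (ZMod.val_lt _).le]
  simp

/-- pinned configurations on the two tori -/
noncomputable def pinEquiv (N M : ℕ) [NeZero N] [NeZero M] (n : ℕ) (hn : n ≤ N) (hm : n ≤ M) :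
    {h : V N → ℤ // ∀ x ∈ outB N n, h x = 0} ≃ {h : V M → ℤ // ∀ x ∈ outB M n, h x = 0} where
  toFun h := ⟨mv M n h.1, mv_pin h.1⟩
  invFun h := ⟨mv N n h.1, mv_pin h.1⟩
  left_inv h := Subtype.ext (mv_mv hn hm h.2)
  right_inv h := Subtype.ext (mv_mv hm hn h.2)

/-- product over the torus as a product over `ℕ × ℕ` -/
theorem prod_torus {N : ℕ} [NeZero N] (f : V N → ℝ) :
    ∏ x : V N, f x = ∏ p ∈ range N ×ˢ range N, f ((p.1 : ZMod N), (p.2 : ZMod N)) := by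
  symm
  refine Finset.prod_bij (fun p _ => ((p.1 : ZMod N), (p.2 : ZMod N))) (fun _ _ => mem_univ _) ?_ ?_
    (fun _ _ => rfl)
  · intro p hp q hq h
    simp only [mem_product, mem_range] at hp hq
    simp only [Prod.mk.injEq] at h
    have h1 := congrArg ZMod.val h.1
    have h2 := congrArg ZMod.val h.2
    rw [ZMod.val_cast_of_lt hp.1, ZMod.val_cast_of_lt hq.1] at h1
    rw [ZMod.val_cast_of_lt hp.2, ZMod.val_cast_of_lt hq.2] at h2
    exact Prod.ext h1 h2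
  · intro x _
    refine ⟨(x.1.val, x.2.val), ?_, ?_⟩
    · simp only [mem_product, mem_range]
      exact ⟨ZMod.val_lt _, ZMod.val_lt _⟩
    · simp

/-- a product over the big square is a product over the small square, up to a constant -/
theorem prod_sq {n N : ℕ} (hn : n ≤ N) (f : ℕ × ℕ → ℝ) (c : ℝ)
    (hf : ∀ p : ℕ × ℕ, (n ≤ p.1 ∨ n ≤ p.2) → f p = c) :
    ∏ p ∈ range N ×ˢ range N, f p = c ^ (N ^ 2 - n ^ 2) * ∏ p ∈ range n ×ˢ range n, f p := by
  have hsub : range n ×ˢ range n ⊆ range N ×ˢ range N := by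
    intro p hp
    simp only [mem_product, mem_range] at hp ⊢
    omega
  rw [← prod_sdiff hsub]
  congr 1
  rw [prod_congr rfl (g := fun _ => c)]
  · rw [prod_const, card_sdiff_of_subset hsub]
    simp [card_product, pow_two]
  · intro p hp
    apply hf
    simp only [mem_sdiff, mem_product, mem_range] at hp
    omega

/-- weight on the torus: edge weight `w`, site weight `v` -/
noncomputable def tw {N : ℕ} [NeZero N] (w v : ℤ → ℝ) (h : V N → ℤ) : ℝ :=
  (∏ e : V N × Bool, w (h (tgt e) - h e.1)) * ∏ x : V N, v (h x)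

/-- weight of the box -/
noncomputable def bw (n : ℕ) (w v : ℤ → ℝ) (H : ℕ → ℕ → ℤ) : ℝ :=
  (∏ p ∈ range n ×ˢ range n, (w (H (p.1 + 1) p.2 - H p.1 p.2) * w (H p.1 (p.2 + 1) - H p.1 p.2)))
    * ∏ p ∈ range n ×ˢ range n, v (H p.1 p.2)

theorem tw_eq {N n : ℕ} [NeZero N] (hn : n ≤ N) (w v : ℤ → ℝ) {h : V N → ℤ}
    (hp : ∀ x ∈ outB N n, h x = 0) :
    tw w v h = ((w 0 * w 0) ^ (N ^ 2 - n ^ 2) * v 0 ^ (N ^ 2 - n ^ 2)) * bw n w v (ev n h) := by
  unfold tw bw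
  have h1 : ∏ e : V N × Bool, w (h (tgt e) - h e.1) =
      ∏ p ∈ range N ×ˢ range N, (w (ev n h (p.1 + 1) p.2 - ev n h p.1 p.2) *
        w (ev n h p.1 (p.2 + 1) - ev n h p.1 p.2)) := by
    rw [Fintype.prod_prod_type]
    simp only [Fintype.prod_bool]
    rw [prod_torus]
    refine prod_congr rfl fun p hp' => ?_
    simp only [mem_product, mem_range] at hp'
    rw [ev_eq hn hp (i := p.1 + 1) (j := p.2) (by omega) (by omega),
      ev_eq hn hp (i := p.1) (j := p.2) (by omega) (by omega),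
      ev_eq hn hp (i := p.1) (j := p.2 + 1) (by omega) (by omega)]
    simp only [tgt, if_true, Bool.false_eq_true, if_false, Nat.cast_add, Nat.cast_one]
    ring
  have h2 : ∏ x : V N, v (h x) = ∏ p ∈ range N ×ˢ range N, v (ev n h p.1 p.2) := by
    rw [prod_torus]
    refine prod_congr rfl fun p hp' => ?_
    simp only [mem_product, mem_range] at hp'
    rw [ev_eq hn hp (i := p.1) (j := p.2) (by omega) (by omega)]
  rw [h1, h2, prod_sq hn _ (w 0 * w 0), prod_sq hn _ (v 0)]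
  · ring
  · intro p hp'
    rw [ev_out (by omega)]
  · intro p hp'
    rw [ev_out (i := p.1 + 1) (j := p.2) (by omega), ev_out (i := p.1) (j := p.2) (by omega),
      ev_out (i := p.1) (j := p.2 + 1) (by omega)]
    simp

open Classical in
/-- sum over configurations pinned outside the box -/
theorem tsum_pin {N n : ℕ} [NeZero N] (G : (V N → ℤ) → ℝ) :
    ∑' h : V N → ℤ, (if ∀ x ∈ outB N n, h x = 0 then 1 else 0) * G h =
      ∑' h : {h : V N → ℤ // ∀ x ∈ outB N n, h x = 0}, G h.1 := by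
  have h1 := tsum_subtype {h : V N → ℤ | ∀ x ∈ outB N n, h x = 0} G
  rw [show (∑' h : {h : V N → ℤ // ∀ x ∈ outB N n, h x = 0}, G h.1) =
    ∑' h : {h : V N → ℤ | ∀ x ∈ outB N n, h x = 0}, G h from rfl, h1]
  refine tsum_congr fun h => ?_
  by_cases hh : ∀ x ∈ outB N n, h x = 0
  · rw [if_pos hh, one_mul, Set.indicator_of_mem
      (show h ∈ {h : V N → ℤ | ∀ x ∈ outB N n, h x = 0} from hh)]
  · rw [if_neg hh, zero_mul, Set.indicator_of_notMem
      (show h ∉ {h : V N → ℤ | ∀ x ∈ outB N n, h x = 0} from hh)]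

open Classical in
/-- **BOX**, sums: `F` on the torus of side `N` and `F'` on the torus of side `M` are the same
function of the heights in the open box -/
theorem tsum_box {N M n : ℕ} [NeZero N] [NeZero M] (hn : n ≤ N) (hm : n ≤ M) (w v : ℤ → ℝ)
    (hw : w 0 ≠ 0) (hv : v 0 ≠ 0) (F : (V N → ℤ) → ℝ) (F' : (V M → ℤ) → ℝ)
    (hF : ∀ h : V N → ℤ, (∀ x ∈ outB N n, h x = 0) → F' (mv M n h) = F h) :
    (∑' h : V N → ℤ, (if ∀ x ∈ outB N n, h x = 0 then 1 else 0) * (tw w v h * F h)) /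
        ((w 0 * w 0) ^ (N ^ 2 - n ^ 2) * v 0 ^ (N ^ 2 - n ^ 2)) =
      (∑' h : V M → ℤ, (if ∀ x ∈ outB M n, h x = 0 then 1 else 0) * (tw w v h * F' h)) /
        ((w 0 * w 0) ^ (M ^ 2 - n ^ 2) * v 0 ^ (M ^ 2 - n ^ 2)) := by
  have hc : ∀ K : ℕ, ((w 0 * w 0) ^ K * v 0 ^ K) ≠ 0 := fun K =>
    mul_ne_zero (pow_ne_zero _ (mul_ne_zero hw hw)) (pow_ne_zero _ hv)
  rw [tsum_pin (fun h => tw w v h * F h), tsum_pin (fun h => tw w v h * F' h)]
  have e1 : ∑' h : {h : V N → ℤ // ∀ x ∈ outB N n, h x = 0}, tw w v h.1 * F h.1 =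
      ((w 0 * w 0) ^ (N ^ 2 - n ^ 2) * v 0 ^ (N ^ 2 - n ^ 2)) *
      ∑' h : {h : V N → ℤ // ∀ x ∈ outB N n, h x = 0}, bw n w v (ev n h.1) * F h.1 := by
    rw [← tsum_mul_left]
    refine tsum_congr fun h => ?_
    rw [tw_eq hn w v h.2]
    ring
  have e2 : ∑' h : {h : V M → ℤ // ∀ x ∈ outB M n, h x = 0}, tw w v h.1 * F' h.1 =
      ((w 0 * w 0) ^ (M ^ 2 - n ^ 2) * v 0 ^ (M ^ 2 - n ^ 2)) *
      ∑' h : {h : V M → ℤ // ∀ x ∈ outB M n, h x = 0}, bw n w v (ev n h.1) * F' h.1 := by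
    rw [← tsum_mul_left]
    refine tsum_congr fun h => ?_
    rw [tw_eq hm w v h.2]
    ring
  rw [e1, e2, mul_div_cancel_left₀ _ (hc _), mul_div_cancel_left₀ _ (hc _),
    ← (pinEquiv N M n hn hm).tsum_eq]
  refine tsum_congr fun h => ?_
  show bw n w v (ev n h.1) * F h.1 = bw n w v (ev n (mv M n h.1)) * F' (mv M n h.1)
  rw [hF h.1 h.2]
  congr 2
  funext i j
  exact (ev_mv hm h.1 i j).symm

open Classical in
/-- **BOX**, expectations, any edge weight `w` and site weight `v` -/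
theorem ratio_box {N M n : ℕ} [NeZero N] [NeZero M] (hn : n ≤ N) (hm : n ≤ M) (w v : ℤ → ℝ)
    (hw : w 0 ≠ 0) (hv : v 0 ≠ 0) (F : (V N → ℤ) → ℝ) (F' : (V M → ℤ) → ℝ)
    (hF : ∀ h : V N → ℤ, (∀ x ∈ outB N n, h x = 0) → F' (mv M n h) = F h) :
    (∑' h : V N → ℤ, (if ∀ x ∈ outB N n, h x = 0 then 1 else 0) * (tw w v h * F h)) /
        (∑' h : V N → ℤ, (if ∀ x ∈ outB N n, h x = 0 then 1 else 0) * tw w v h) =
      (∑' h : V M → ℤ, (if ∀ x ∈ outB M n, h x = 0 then 1 else 0) * (tw w v h * F' h)) /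
        (∑' h : V M → ℤ, (if ∀ x ∈ outB M n, h x = 0 then 1 else 0) * tw w v h) := by
  have hc : ∀ K : ℕ, ((w 0 * w 0) ^ K * v 0 ^ K) ≠ 0 := fun K =>
    mul_ne_zero (pow_ne_zero _ (mul_ne_zero hw hw)) (pow_ne_zero _ hv)
  have h1 := tsum_box hn hm w v hw hv F F' hF
  have h2 := tsum_box hn hm w v hw hv (fun _ => 1) (fun _ => 1) (fun _ _ => rfl)
  simp only [mul_one] at h2
  rw [div_eq_div_iff (hc _) (hc _)] at h1 h2
  set A := ∑' h : V N → ℤ, (if ∀ x ∈ outB N n, h x = 0 then (1 : ℝ) else 0) * (tw w v h * F h)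
  set A' := ∑' h : V M → ℤ, (if ∀ x ∈ outB M n, h x = 0 then (1 : ℝ) else 0) * (tw w v h * F' h)
  set B := ∑' h : V N → ℤ, (if ∀ x ∈ outB N n, h x = 0 then (1 : ℝ) else 0) * tw w v h
  set B' := ∑' h : V M → ℤ, (if ∀ x ∈ outB M n, h x = 0 then (1 : ℝ) else 0) * tw w v h
  by_cases hB : B = 0
  · have hB' : B' = 0 := by
      rw [hB, zero_mul] at h2
      exact (mul_eq_zero.1 h2.symm).resolve_right (hc _)
    rw [hB, hB', div_zero, div_zero]
  · have hB' : B' ≠ 0 := by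
      intro h0
      rw [h0, zero_mul] at h2
      exact (mul_ne_zero hB (hc _)) h2
    rw [div_eq_div_iff hB hB']
    have h3 : A * B' * (((w 0 * w 0) ^ (N ^ 2 - n ^ 2) * v 0 ^ (N ^ 2 - n ^ 2)) *
        ((w 0 * w 0) ^ (M ^ 2 - n ^ 2) * v 0 ^ (M ^ 2 - n ^ 2))) =
        A' * B * (((w 0 * w 0) ^ (N ^ 2 - n ^ 2) * v 0 ^ (N ^ 2 - n ^ 2)) *
        ((w 0 * w 0) ^ (M ^ 2 - n ^ 2) * v 0 ^ (M ^ 2 - n ^ 2))) := by
      calc _ = (A * ((w 0 * w 0) ^ (M ^ 2 - n ^ 2) * v 0 ^ (M ^ 2 - n ^ 2))) *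
            (B' * ((w 0 * w 0) ^ (N ^ 2 - n ^ 2) * v 0 ^ (N ^ 2 - n ^ 2))) := by ring
        _ = _ := by rw [h1, ← h2]; ring
    exact mul_right_cancel₀ (mul_ne_zero (hc _) (hc _)) h3

/-- the heights at interior sites are transported -/
theorem mv_int {N M : ℕ} [NeZero M] {n : ℕ} (hm : n ≤ M) (h : V N → ℤ) {i j : ℕ}
    (hi : 1 ≤ i ∧ i < n) (hj : 1 ≤ j ∧ j < n) :
    mv M n h ((i : ZMod M), (j : ZMod M)) = h ((i : ZMod N), (j : ZMod N)) := by
  have h1 : ((i : ZMod M)).val = i := ZMod.val_cast_of_lt (by omega)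
  have h2 : ((j : ZMod M)).val = j := ZMod.val_cast_of_lt (by omega)
  show ev n h _ _ = _
  unfold ev
  simp only [h1, h2]
  rw [if_pos ⟨hi.1, hi.2, hj.1, hj.2⟩]

/-- the weight of `TM/Spec/I.lean` on the torus with constant mass `ε` is `tw` -/
theorem spec_wt {N : ℕ} [NeZero N] (b ε : ℝ) (X : Finset (V N)) (h : V N → ℤ) :
    SpecI.wt b univ X (full ε) h = (open Classical in if ∀ x ∈ X, h x = 0 then 1 else 0) *
      tw (Vale.Agent.P159.H353.wI b) (fun k => Real.exp (-(ε * (k : ℝ) ^ 2) / 2)) h := by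
  classical
  unfold SpecI.wt tw full
  rw [mul_assoc]
  congr 1
  · congr 1
  · congr 1
    rw [← Real.exp_sum]
    congr 1
    rw [mul_sum, ← sum_neg_distrib, sum_div]

/-- **BOX** in the letters of `TM/Spec/I.lean`, any functional of the heights in the open box -/
theorem ex_box {N M n : ℕ} [NeZero N] [NeZero M] (hn : n ≤ N) (hm : n ≤ M) {b : ℝ} (hb : 0 ≤ b)
    (ε : ℝ) (F : (V N → ℤ) → ℝ) (F' : (V M → ℤ) → ℝ)
    (hF : ∀ h : V N → ℤ, (∀ x ∈ outB N n, h x = 0) → F' (mv M n h) = F h) :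
    SpecI.ex b univ (outB N n) (full ε) F = SpecI.ex b univ (outB M n) (full ε) F' := by
  classical
  unfold SpecI.ex
  have h := ratio_box hn hm (Vale.Agent.P159.H353.wI b)
    (fun k => Real.exp (-(ε * (k : ℝ) ^ 2) / 2)) (Vale.Agent.P159.H353.wI_zero_pos hb).ne'
    (Real.exp_pos _).ne' F F' hF
  simp only [spec_wt, mul_assoc]
  convert h using 3

/-- **BOX** in the letters of `TM/Spec/I.lean`: two-point function -/
theorem ex_box_two {N M n : ℕ} [NeZero N] [NeZero M] (hn : n ≤ N) (hm : n ≤ M) {b : ℝ}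
    (hb : 0 ≤ b) (ε : ℝ) {i j k l : ℕ} (hi : 1 ≤ i ∧ i < n) (hj : 1 ≤ j ∧ j < n)
    (hk : 1 ≤ k ∧ k < n) (hl : 1 ≤ l ∧ l < n) :
    SpecI.ex b univ (outB N n) (full ε) (fun h =>
        (h ((i : ZMod N), (j : ZMod N)) : ℝ) * (h ((k : ZMod N), (l : ZMod N)) : ℝ)) =
      SpecI.ex b univ (outB M n) (full ε) (fun h =>
        (h ((i : ZMod M), (j : ZMod M)) : ℝ) * (h ((k : ZMod M), (l : ZMod M)) : ℝ)) := by
  refine ex_box hn hm hb ε _ _ fun h _ => ?_
  simp only [mv_int hm h hi hj, mv_int hm h hk hl]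

end Vale.Agent.P159.TM.H705
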