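import Vale.Agent.P159.TM.H705.Trans
import Vale.Agent.P159.TM.H705.Box
import Vale.Agent.P159.TM.H265.Entry
import Vale.Agent.P159.TM.H41.Ker

/-!
BOX in the letters `Cv` of 265 (`TM/H265/Entry.lean`), and the entrywise comparison with the torus
kernels `H41.G`.
-/

set_option linter.unusedSectionVars false

namespace Vale.Agent.P159.TM.H705

open Finset
open Vale.Agent.P159.H353 (wI)
open Vale.Agent.P159.T1.H934 (W grd)
open Vale.Agent.P159.TM.H459 (tS tT dir)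
open Vale.Agent.P159.TM.H708 (SS ga iX)
open Vale.Agent.P159.TM.H265 (Cv)
open Vale.Agent.P159.TM.SpecC (wT ms)

noncomputable section

variable {N M : ℕ} [NeZero N] [NeZero M]

/-- covariances of the torus of side `N` with coupling `b`, mass `ξ⁻²` and zeros on `X` -/
def CN (b ξ : ℝ) (X : Set (ZMod N × ZMod N)) (u z : ZMod N × ZMod N) : ℝ :=
  Cv (grd (tS (N := N)) tT) (fun _ => b) (ms ξ) X u z

theorem W_tw (b : ℝ) (h : ZMod N × ZMod N → ℤ) :
    W (grd (tS (N := N)) tT) (fun _ => b) h =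
      ∏ e : (ZMod N × ZMod N) × Bool, wI b (h (SpecI.tgt e) - h e.1) := by
  unfold W
  have h1 := Fintype.prod_prod_type
    (fun e : (ZMod N × ZMod N) × Bool => wI b (grd (tS (N := N)) tT h e))
  have h2 := Fintype.prod_prod_type
    (fun e : (ZMod N × ZMod N) × Bool => wI b (h (SpecI.tgt e) - h e.1))
  refine h1.trans (Eq.trans ?_ h2.symm)
  refine prod_congr rfl fun x _ => ?_
  rw [Fintype.prod_bool, Fintype.prod_bool, mul_comm]
  congr 1
  · show wI b (h (tT (N := N) (x, false)) - h (tS (N := N) (x, false))) = _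
    unfold tT tS dir SpecI.tgt
    simp only [Bool.false_eq_true, if_false, if_true]
    congr 3
    ext <;> simp
  · show wI b (h (tT (N := N) (x, true)) - h (tS (N := N) (x, true))) = _
    unfold tT tS dir SpecI.tgt
    simp only [Bool.false_eq_true, if_false, if_true]
    congr 3
    ext <;> simp

theorem ga_full (ξ : ℝ) (h : ZMod N × ZMod N → ℤ) :
    ga (ms ξ) h = Real.exp (-(SpecI.full (1 / ξ ^ 2) h) / 2) := by
  unfold ga SpecI.full ms
  congr 1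
  rw [mul_sum, ← sum_neg_distrib, ← sum_neg_distrib, sum_div]
  exact sum_congr rfl fun x _ => by ring

theorem SS_ex (b ξ : ℝ) (X : Finset (ZMod N × ZMod N)) (F : (ZMod N × ZMod N → ℤ) → ℝ) :
    SS (grd (tS (N := N)) tT) (fun _ => b) (ms ξ) (X : Set (ZMod N × ZMod N)) F =
      ∑' h, SpecI.wt b univ X (SpecI.full (1 / ξ ^ 2)) h * F h := by
  classical
  unfold SS
  refine tsum_congr fun h => ?_
  unfold H708.bw SpecI.wt
  rw [W_tw, ga_full]
  have h1 : iX (X : Set (ZMod N × ZMod N)) h = if ∀ x ∈ X, h x = 0 then 1 else 0 := by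
    unfold iX
    congr 1
  rw [h1]
  have h2 : (if ∀ x ∈ X, h x = 0 then (1 : ℝ) else 0) =
      @ite ℝ (∀ x ∈ X, h x = 0) (Classical.propDecidable _) 1 0 := by
    congr 1
  rw [h2]
  ring_nf

theorem Cv_ex (b ξ : ℝ) (X : Finset (ZMod N × ZMod N)) (u z : ZMod N × ZMod N) :
    CN b ξ (X : Set (ZMod N × ZMod N)) u z =
      SpecI.ex b univ X (SpecI.full (1 / ξ ^ 2)) fun h => (h u : ℝ) * (h z : ℝ) := by
  unfold CN Cv SpecI.ex
  rw [SS_ex, SS_ex]
  simp only [mul_one]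

/-- the covariance in the open box of side `n` as a function on `ℕ × ℕ` (computed on the torus of
side `N`) -/
def AB (N : ℕ) [NeZero N] (b ξ : ℝ) (n : ℕ) (u z : ℕ × ℕ) : ℝ :=
  CN b ξ (outB N n : Set (ZMod N × ZMod N)) (pt N u) (pt N z)

/-- **BOX**: the covariance in the box does not depend on the torus -/
theorem AB_eq {n : ℕ} (hn : n ≤ N) (hm : n ≤ M) {b : ℝ} (hb : 0 ≤ b) (ξ : ℝ) {u z : ℕ × ℕ}
    (hu : u ∈ bx n) (hz : z ∈ bx n) : AB N b ξ n u z = AB M b ξ n u z := by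
  unfold bx at hu hz
  simp only [mem_product, mem_Ico] at hu hz
  unfold AB
  rw [Cv_ex, Cv_ex]
  exact ex_box_two hn hm hb _ hu.1 hu.2 hz.1 hz.2

/-- without pins `CN` is the kernel of 41 -/
theorem CN_empty (b ξ : ℝ) (u z : ZMod N × ZMod N) : CN b ξ ∅ u z = H41.G b N ξ (z - u) := by
  rw [← H41.Cf_G b ξ u z]
  unfold H104.Cf
  rw [H41.Ex_co H41.even_wT, zero_mul, sub_zero]
  unfold CN Cv SS H870.Ex
  have h0 : ∀ h : ZMod N × ZMod N → ℤ, H708.bw (grd (tS (N := N)) tT) (fun _ => b) (ms ξ) ∅ h =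
      wT b N h * H870.gr (ms ξ) h 0 := by
    intro h
    unfold H708.bw
    rw [H41.wT_eq_W b]
    have h1 : iX (∅ : Set (ZMod N × ZMod N)) h = 1 := by
      unfold iX
      rw [if_pos]
      intro x hx
      exact absurd hx (Set.notMem_empty x)
    rw [h1, mul_one]
    congr 1
    unfold ga H870.gr
    congr 2
    refine sum_congr rfl fun x _ => ?_
    simp
  simp only [h0, mul_one]
  rfl

/-- the entries in the box are at most the entries of the torus -/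
theorem AB_le {n : ℕ} {b ξ : ℝ} (hb : 0 ≤ b) (hξ : 0 < ξ) (u z : ℕ × ℕ) :
    AB N b ξ n u z ≤ H41.G b N ξ (pt N z - pt N u) := by
  rw [← CN_empty]
  unfold AB CN
  exact H265.cv_mono (H265.lat_grd _ _) (fun _ => hb) (fun x => H41.ms_pos hξ x)
    (Set.empty_subset _) _ _

/-- the entries in the box are nonnegative -/
theorem AB_nonneg {n : ℕ} {b ξ : ℝ} (hb : 0 ≤ b) (hξ : 0 < ξ) (u z : ℕ × ℕ) :
    0 ≤ AB N b ξ n u z := by
  unfold AB CN
  exact H265.cv_nonneg (H265.lat_grd _ _) (fun _ => hb) (fun x => H41.ms_pos hξ x) _ _ _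

/-- the entries in the box are at most the entries of any torus containing it -/
theorem AB_le' {n : ℕ} (hn : n ≤ N) (hm : n ≤ M) {b ξ : ℝ} (hb : 0 ≤ b) (hξ : 0 < ξ) {u z : ℕ × ℕ}
    (hu : u ∈ bx n) (hz : z ∈ bx n) : AB N b ξ n u z ≤ H41.G b M ξ (pt M z - pt M u) := by
  rw [AB_eq hn hm hb ξ hu hz]
  exact AB_le hb hξ u z

/-- **Volume transfer for the kernels of the model.**  The only input is the loss (h1) in the box,
the far part (h2), and the truncated moments, all on the torus of side `N`. -/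
theorem trans_model {ξ K : ℕ} (hK : 8 ≤ K) (hξ : 1 ≤ ξ) (hN : K * ξ ≤ N) (hM : K * ξ ≤ M)
    {b : ℝ} (hb : 0 ≤ b) {y e1 e2 a C₁ : ℝ}
    (h1 : ∑ u ∈ b0 (K * ξ) ξ, ∑ z ∈ (bx (K * ξ)).filter (fun z => dB u z ≤ K * ξ / 4),
      (H41.G b N (ξ : ℝ) (pt N z - pt N u) - AB N b (ξ : ℝ) (K * ξ) u z) ≤
        ((b0 (K * ξ) ξ).card : ℝ) * (ξ : ℝ) ^ 2 * e1)
    (h2 : ∑ w ∈ univ.filter (fun w : ZMod N × ZMod N => K * ξ / 4 < H459.sn w),
      H41.G b N (ξ : ℝ) w ≤ (ξ : ℝ) ^ 2 * e2)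
    (h3 : (1 - y) * (ξ : ℝ) ^ 2 ≤ ∑ w, H41.G b N (ξ : ℝ) w)
    (h5 : tsn (K * ξ / 4) (H41.G b N (ξ : ℝ)) (fun w => (w.1.valMinAbs : ℝ) ^ 2) ≤
      2 * a * (ξ : ℝ) ^ 4)
    (h6 : tsn (K * ξ / 4) (H41.G b N (ξ : ℝ)) (fun w => |(w.1.valMinAbs : ℝ)|) ≤
      C₁ * (ξ : ℝ) ^ 3) :
    (1 - (y + e1 + e2)) * (ξ : ℝ) ^ 2 ≤ ∑ w, H41.G b M (ξ : ℝ) w ∧
      H764.QU (ξ : ℝ) (H41.G b M (ξ : ℝ)) (3 * (y + e1 + e2)) a ∧
      ∀ C2 C2' W : ℝ, 0 < C2 → C2 < C2' → H764.H2 C2 W (ξ : ℝ) (H41.G b N (ξ : ℝ)) →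
        (2 * (y + e1 + e2) + 4 * Real.pi * C₁ * ((ξ : ℝ) / N)) * (1 + 2 * W ^ 2) ≤
          1 / C2 - 1 / C2' → H764.H2 C2' W (ξ : ℝ) (H41.G b M (ξ : ℝ)) := by
  have hξ' : (0 : ℝ) < (ξ : ℝ) := by exact_mod_cast hξ
  have k0 := H41.Gh_le (N := N) hb hξ' 0
  have k4 := H41.Gh_le (N := M) hb hξ' 0
  rw [Gh_zero] at k0 k4
  exact trans_kernel hK hξ hN hM (H41.G_nonneg hb hξ') (H41.G_nonneg hb hξ')
    (H41.G_refl b _) (H41.G_refl b _) (H41.G_swap b _) (H41.G_swap b _)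
    (AB N b (ξ : ℝ) (K * ξ)) (fun u _ z _ => AB_le hb hξ' u z)
    (fun u hu z hz => AB_le' hN hM hb hξ' hu hz) h1 h2 h3 k0 k4 h5 h6

end

end Vale.Agent.P159.TM.H705
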