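import Vale.Agent.P159.TM.H705.Trans
import Vale.Agent.P159.TM.H738.A2

/-!
Chord with truncated moments (torus of side `N = n ξ`, `n` arbitrarily large), sign of the slope,
far tail in the form used by `trans_kernel`.
-/

set_option linter.unusedSectionVars false

namespace Vale.Agent.P159.TM.H705

open Finset Vale.Agent.P159.TM.H764
open Vale.Agent.P159.TM.H459 (sn)

noncomputable section

variable {N : ℕ} [NeZero N]

lemma tsn_eq (r : ℕ) (G φ : ZMod N × ZMod N → ℝ) :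
    tsn r G φ = ∑ w, φ w * (if sn w ≤ r then G w else 0) := by
  unfold tsn
  rw [sum_filter]
  refine sum_congr rfl fun w _ => ?_
  split_ifs <;> simp

lemma tsn_nonneg {r : ℕ} {G φ : ZMod N × ZMod N → ℝ} (hG : ∀ w, 0 ≤ G w) (hφ : ∀ w, 0 ≤ φ w) :
    0 ≤ tsn r G φ := sum_nonneg fun w _ => mul_nonneg (hφ w) (hG w)

/-- lower bound of `D` by the truncated moments -/
theorem DD_ge' (r : ℕ) (G : ZMod N × ZMod N → ℝ) (hG : ∀ w, 0 ≤ G w) (j : ℤ) :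
    tsn r G (fun w => (w.1.valMinAbs : ℝ) ^ 2) * ((2 * Real.pi * j / N) ^ 2 / 2) -
      tsn r G (fun w => (w.1.valMinAbs : ℝ) ^ 4) * ((2 * Real.pi * j / N) ^ 4 / 24)
      ≤ DD G (j : ZMod N) := by
  set G₁ : ZMod N × ZMod N → ℝ := fun w => if sn w ≤ r then G w else 0 with hG₁
  have h0 : ∀ w, 0 ≤ G₁ w := by
    intro w
    simp only [hG₁]
    split_ifs
    · exact hG w
    · exact le_rfl
  have h1 := DD_ge G₁ h0 j
  have h2 : H764.M2 G₁ = tsn r G (fun w => (w.1.valMinAbs : ℝ) ^ 2) := by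
    rw [tsn_eq]
    rfl
  have h3 : M4 G₁ = tsn r G (fun w => (w.1.valMinAbs : ℝ) ^ 4) := by
    rw [tsn_eq]
    rfl
  rw [h2, h3] at h1
  refine h1.trans ?_
  rw [DD_eq, DD_eq]
  refine sum_le_sum fun w _ => ?_
  have h4 : G₁ w ≤ G w := by
    simp only [hG₁]
    split_ifs
    · exact le_rfl
    · exact hG w
  have h5 : 0 ≤ 1 - cN ((j : ZMod N) * w.1) := sub_nonneg.2 (cN_le_one _)
  exact mul_le_mul_of_nonneg_right h4 h5

/-- **Chord at a torus mode, truncated moments.** -/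
theorem chord_mode {r : ℕ} {ξ y a θ C : ℝ} (hξ : 0 < ξ) {G : ZMod N × ZMod N → ℝ}
    (hG : ∀ w, 0 ≤ G w) (h0 : Gh G 0 ≤ ξ ^ 2) (h : QK ξ G y a) (hy : 0 ≤ y) (ha : 0 ≤ a)
    (h4 : tsn r G (fun w => (w.1.valMinAbs : ℝ) ^ 4) ≤ C * ξ ^ 6)
    (hθ : 0 < θ) (j : ℕ) (hj1 : θ ≤ 2 * Real.pi * j / N * ξ) (hj2 : 2 * Real.pi * j / N * ξ ≤ 2 * θ) :
    tsn r G (fun w => (w.1.valMinAbs : ℝ) ^ 2) ≤ 2 * (a + y / θ ^ 2 + C * θ ^ 2 / 6) * ξ ^ 4 := by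
  set p : ℝ := 2 * Real.pi * j / N with hp
  have hp0 : 0 < p := by
    by_contra hneg
    push Not at hneg
    have : p * ξ ≤ 0 := mul_nonpos_of_nonpos_of_nonneg hneg hξ.le
    linarith
  have hC : 0 ≤ C := by
    have := (tsn_nonneg (r := r) hG (fun w => by positivity :
      ∀ w : ZMod N × ZMod N, 0 ≤ (w.1.valMinAbs : ℝ) ^ 4)).trans h4
    exact nonneg_of_mul_nonneg_left this (by positivity)
  have hu : p ^ 2 * ξ ^ 2 ≤ 4 * θ ^ 2 := by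
    have := pow_le_pow_left₀ (by positivity : 0 ≤ p * ξ) hj2 2
    nlinarith
  have hl : θ ^ 2 ≤ p ^ 2 * ξ ^ 2 := by
    have := pow_le_pow_left₀ hθ.le hj1 2
    nlinarith
  have h1 := DD_ge' r G hG (j : ℤ)
  have h2 := h.axis h0 ((j : ℤ) : ZMod N)
  have hcos : cN (((j : ℤ)) : ZMod N) = Real.cos p := by
    rw [cN_int, hp]
    push_cast
    rfl
  rw [hcos] at h2
  have h5 : 2 * (1 - Real.cos p) ≤ p ^ 2 := by
    have := Real.one_sub_sq_div_two_le_cos (x := p)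
    linarith
  have e1 : 2 * Real.pi * ((j : ℤ) : ℝ) / N = p := by rw [hp]; push_cast; rfl
  rw [e1] at h1
  have h6 : a * ξ ^ 4 * (2 * (1 - Real.cos p)) ≤ a * ξ ^ 4 * p ^ 2 :=
    mul_le_mul_of_nonneg_left h5 (by positivity)
  have h7 : tsn r G (fun w => (w.1.valMinAbs : ℝ) ^ 4) * (p ^ 4 / 24) ≤
      C * ξ ^ 6 * (p ^ 4 / 24) := mul_le_mul_of_nonneg_right h4 (by positivity)
  set T := tsn r G (fun w => (w.1.valMinAbs : ℝ) ^ 2) with hT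
  have h8 : T * (p ^ 2 / 2) ≤ y * ξ ^ 2 + a * ξ ^ 4 * p ^ 2 + C * ξ ^ 6 * (p ^ 4 / 24) := by
    linarith
  have h9 : y * ξ ^ 2 ≤ y / θ ^ 2 * ξ ^ 4 * p ^ 2 := by
    have : y * ξ ^ 2 = y / θ ^ 2 * ξ ^ 2 * θ ^ 2 := by field_simp
    rw [this]
    have h10 : y / θ ^ 2 * ξ ^ 2 * θ ^ 2 ≤ y / θ ^ 2 * ξ ^ 2 * (p ^ 2 * ξ ^ 2) :=
      mul_le_mul_of_nonneg_left hl (by positivity)
    linarith [h10, (by ring : y / θ ^ 2 * ξ ^ 2 * (p ^ 2 * ξ ^ 2) = y / θ ^ 2 * ξ ^ 4 * p ^ 2)]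
  have h11 : C * ξ ^ 6 * (p ^ 4 / 24) ≤ C * θ ^ 2 / 6 * ξ ^ 4 * p ^ 2 := by
    have h12 : C * ξ ^ 6 * (p ^ 4 / 24) = C * ξ ^ 4 * p ^ 2 / 24 * (p ^ 2 * ξ ^ 2) := by ring
    rw [h12]
    have h13 : C * ξ ^ 4 * p ^ 2 / 24 * (p ^ 2 * ξ ^ 2) ≤ C * ξ ^ 4 * p ^ 2 / 24 * (4 * θ ^ 2) :=
      mul_le_mul_of_nonneg_left hu (by positivity)
    linarith [(by ring : C * ξ ^ 4 * p ^ 2 / 24 * (4 * θ ^ 2) = C * θ ^ 2 / 6 * ξ ^ 4 * p ^ 2)]
  have h14 : T * (p ^ 2 / 2) ≤ (2 * (a + y / θ ^ 2 + C * θ ^ 2 / 6) * ξ ^ 4) * (p ^ 2 / 2) := by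
    linarith [(by ring : (2 * (a + y / θ ^ 2 + C * θ ^ 2 / 6) * ξ ^ 4) * (p ^ 2 / 2) =
      y / θ ^ 2 * ξ ^ 4 * p ^ 2 + a * ξ ^ 4 * p ^ 2 + C * θ ^ 2 / 6 * ξ ^ 4 * p ^ 2)]
  exact le_of_mul_le_mul_right h14 (by positivity)

/-- **Truncated chord**: the truncated second moment from the truncated fourth moment. -/
theorem chord_trunc {r n : ℕ} {ξ y a C : ℝ} (hξ : 0 < ξ) (hn : 1 ≤ n) (hN : (N : ℝ) = n * ξ)
    {G : ZMod N × ZMod N → ℝ} (hG : ∀ w, 0 ≤ G w) (h0 : Gh G 0 ≤ ξ ^ 2) (h : QK ξ G y a)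
    (hy : 0 < y) (ha : 0 ≤ a)
    (h4 : tsn r G (fun w => (w.1.valMinAbs : ℝ) ^ 4) ≤ C * ξ ^ 6) :
    tsn r G (fun w => (w.1.valMinAbs : ℝ) ^ 2) ≤
      2 * (a + (1 + C) * (√y + 40 / (n : ℝ) ^ 2)) * ξ ^ 4 := by
  have hn0 : (0 : ℝ) < n := by exact_mod_cast hn
  have hπ := Real.pi_pos
  set s : ℝ := √(√y) with hs
  have hs0 : 0 < s := Real.sqrt_pos.2 (Real.sqrt_pos.2 hy)
  have hs2 : s ^ 2 = √y := Real.sq_sqrt (Real.sqrt_nonneg y)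
  set θ : ℝ := max s (2 * Real.pi / n) with hθ
  have hθ0 : 0 < θ := lt_of_lt_of_le hs0 (le_max_left _ _)
  have hθn : 2 * Real.pi / n ≤ θ := le_max_right _ _
  have hC : 0 ≤ C := by
    have := (tsn_nonneg (r := r) hG (fun w => by positivity :
      ∀ w : ZMod N × ZMod N, 0 ≤ (w.1.valMinAbs : ℝ) ^ 4)).trans h4
    exact nonneg_of_mul_nonneg_left this (by positivity)
  -- the mode
  have hq1 : 1 ≤ n * θ / (2 * Real.pi) := by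
    rw [le_div_iff₀ (by positivity), one_mul]
    rw [div_le_iff₀ hn0] at hθn
    linarith
  obtain ⟨j, hj1, hj2⟩ : ∃ j : ℕ, n * θ / (2 * Real.pi) ≤ j ∧
      (j : ℝ) ≤ 2 * (n * θ / (2 * Real.pi)) := by
    refine ⟨⌈n * θ / (2 * Real.pi)⌉₊, Nat.le_ceil _, ?_⟩
    have := (Nat.ceil_lt_add_one (by positivity : 0 ≤ n * θ / (2 * Real.pi))).le
    linarith
  have hpj : 2 * Real.pi * j / N * ξ = 2 * Real.pi * j / n := by
    rw [hN]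
    field_simp
  have k1 : θ ≤ 2 * Real.pi * j / N * ξ := by
    rw [hpj, le_div_iff₀ hn0]
    rw [div_le_iff₀ (by positivity)] at hj1
    linarith
  have k2 : 2 * Real.pi * j / N * ξ ≤ 2 * θ := by
    rw [hpj, div_le_iff₀ hn0]
    have h5 : 2 * Real.pi * (j : ℝ) ≤ 2 * Real.pi * (2 * (n * θ / (2 * Real.pi))) :=
      mul_le_mul_of_nonneg_left hj2 (by positivity)
    have h6 : 2 * Real.pi * (2 * (n * θ / (2 * Real.pi))) = 2 * θ * n := by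
      field_simp
    linarith
  have h5 := chord_mode hξ hG h0 h hy.le ha h4 hθ0 j k1 k2
  refine h5.trans ?_
  have h6 : θ ^ 2 ≤ √y + 40 / (n : ℝ) ^ 2 := by
    have h7 : θ ^ 2 ≤ s ^ 2 + (2 * Real.pi / n) ^ 2 := by
      rcases max_choice s (2 * Real.pi / n) with h8 | h8
      · rw [hθ, h8]; nlinarith [sq_nonneg (2 * Real.pi / n)]
      · rw [hθ, h8]; nlinarith [sq_nonneg s]
    have h9 : (2 * Real.pi / n) ^ 2 ≤ 40 / (n : ℝ) ^ 2 := by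
      rw [div_pow]
      apply div_le_div_of_nonneg_right _ (by positivity)
      have : Real.pi < 3.15 := Real.pi_lt_d2
      nlinarith
    rw [hs2] at h7
    linarith
  have h7 : y / θ ^ 2 ≤ √y := by
    rw [div_le_iff₀ (by positivity)]
    have h8 : √y ≤ θ ^ 2 := by
      rw [← hs2]
      exact pow_le_pow_left₀ hs0.le (le_max_left _ _) 2
    have h9 : √y * √y = y := Real.mul_self_sqrt hy.le
    nlinarith [Real.sqrt_nonneg y]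
  have hn2 : 0 ≤ 40 / (n : ℝ) ^ 2 := by positivity
  have hsy := Real.sqrt_nonneg y
  have h10 : a + y / θ ^ 2 + C * θ ^ 2 / 6 ≤ a + (1 + C) * (√y + 40 / (n : ℝ) ^ 2) := by
    have h11 : C * θ ^ 2 ≤ C * (√y + 40 / (n : ℝ) ^ 2) := mul_le_mul_of_nonneg_left h6 hC
    have h12 : 0 ≤ C * (√y + 40 / (n : ℝ) ^ 2) := by positivity
    nlinarith
  have hx4 : 0 ≤ ξ ^ 4 := by positivity
  nlinarith

/-- a slope bound cannot be very negative -/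
theorem neg_slope {ξ y a : ℝ} (hξ : 1 ≤ ξ) (hN : 2 ≤ N) {G : ZMod N × ZMod N → ℝ}
    (hG : ∀ w, 0 ≤ G w) (h0 : Gh G 0 ≤ ξ ^ 2) (h : QK ξ G y a) (hy : 0 ≤ y) : -a ≤ y := by
  by_cases ha : 0 ≤ a
  · linarith
  push Not at ha
  have hπ := Real.pi_pos
  have hN0 : (0 : ℝ) < N := by exact_mod_cast NeZero.pos N
  obtain ⟨m, hm1, hm2⟩ : ∃ m : ℕ, m * 2 ≤ N ∧ N ≤ m * 4 := ⟨N / 2, by omega, by omega⟩
  have h1 := h.axis h0 (((m : ℕ) : ℤ) : ZMod N)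
  have h2 := DD_nonneg G hG (((m : ℕ) : ℤ) : ZMod N)
  rw [cN_int] at h1
  have h3 : Real.cos (2 * Real.pi * ((m : ℕ) : ℤ) / N) ≤ 0 := by
    have k1 : (m : ℝ) * 2 ≤ N := by exact_mod_cast hm1
    have k2 : (N : ℝ) ≤ (m : ℝ) * 4 := by exact_mod_cast hm2
    apply Real.cos_nonpos_of_pi_div_two_le_of_le
    · push_cast
      rw [div_le_div_iff₀ (by norm_num) hN0]
      nlinarith
    · push_cast
      rw [div_le_iff₀ hN0]
      nlinarith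
  set c := Real.cos (2 * Real.pi * ((m : ℕ) : ℤ) / N) with hc
  have h4 : a * ξ ^ 4 * (2 * (1 - c)) ≤ 2 * a * ξ ^ 4 := by
    have h5 : 0 < ξ ^ 4 := by positivity
    have h6 : a * ξ ^ 4 ≤ 0 := by nlinarith
    nlinarith
  have h7 : -(2 * a) * ξ ^ 4 ≤ y * ξ ^ 2 := by linarith
  have h8 : y * ξ ^ 2 ≤ y * ξ ^ 4 := by
    have : ξ ^ 2 ≤ ξ ^ 4 := pow_le_pow_right₀ hξ (by norm_num)
    exact mul_le_mul_of_nonneg_left this hy
  have h9 : 0 < ξ ^ 4 := by positivity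
  have h10 : -(2 * a) ≤ y := le_of_mul_le_mul_right (h7.trans h8) h9
  linarith

/-- the hypothesis with a nonnegative slope -/
theorem QK.posSlope {ξ y a : ℝ} (hξ : 0 ≤ ξ) {G : ZMod N × ZMod N → ℝ} (h : QK ξ G y a) :
    QK ξ G y (max a 0) := h.mono hξ le_rfl (le_max_left _ _)

/-- far tail in the form (h2) of `trans_kernel` -/
theorem far_tail {ξ K : ℕ} (hK : 1 ≤ K) (hξ : 1 ≤ ξ) {G : ZMod N × ZMod N → ℝ}
    (hG : ∀ w, 0 ≤ G w) (hs : ∀ w, G (w.2, w.1) = G w) {y a : ℝ} (hy : 0 ≤ y) (ha : 0 ≤ a)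
    (h : QK (ξ : ℝ) G y a) (h0 : ∑ w, G w ≤ (ξ : ℝ) ^ 2) :
    ∑ w ∈ univ.filter (fun w : ZMod N × ZMod N => K * ξ / 4 < sn w), G w ≤
      (ξ : ℝ) ^ 2 * (2 * (2 + 80 * a) * (y + 16 / (K : ℝ) ^ 2)) := by
  have h1 := H738.tail_nrm G hG hs (H738.tail_QK G hG hy ha h h0) (K * ξ / 4 + 1) (by omega)
  have h2 : (univ.filter fun w : ZMod N × ZMod N => K * ξ / 4 < sn w) =
      univ.filter fun w : ZMod N × ZMod N => K * ξ / 4 + 1 ≤ nrm w := by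
    rfl
  rw [h2]
  refine h1.trans ?_
  have hK0 : (0 : ℝ) < K := by exact_mod_cast hK
  have hx0 : (0 : ℝ) < ξ := by exact_mod_cast hξ
  have h3 : (K : ℝ) * ξ / 4 ≤ ((K * ξ / 4 + 1 : ℕ) : ℝ) := by
    have : K * ξ ≤ 4 * (K * ξ / 4 + 1) := by omega
    have h4 : ((K * ξ : ℕ) : ℝ) ≤ ((4 * (K * ξ / 4 + 1) : ℕ) : ℝ) := by exact_mod_cast this
    rw [Nat.cast_mul, Nat.cast_mul] at h4
    push_cast at h4 ⊢
    linarith
  have h4 : (ξ : ℝ) ^ 2 / ((K * ξ / 4 + 1 : ℕ) : ℝ) ^ 2 ≤ 16 / (K : ℝ) ^ 2 := by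
    have h5 : 0 < (K : ℝ) * ξ / 4 := by positivity
    rw [div_le_div_iff₀ (by positivity) (by positivity)]
    have h6 := pow_le_pow_left₀ h5.le h3 2
    nlinarith
  have h5 : (2 + 80 * a) * (ξ : ℝ) ^ 2 * (y + (ξ : ℝ) ^ 2 / ((K * ξ / 4 + 1 : ℕ) : ℝ) ^ 2) ≤
      (2 + 80 * a) * (ξ : ℝ) ^ 2 * (y + 16 / (K : ℝ) ^ 2) := by
    gcongr
  nlinarith

end

end Vale.Agent.P159.TM.H705
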