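import Vale.Agent.P159.TM.H764.Inh

/-!
Volume transfer at the level of kernels: torus of side `N` with kernel `G`, torus of side `M` with
kernel `G'`.  `cut r G G'` is the part of `G'` at distance `< r` which is dominated by `G`.
-/

set_option linter.unusedSectionVars false

namespace Vale.Agent.P159.TM.H705

open Finset Vale.Agent.P159.TM.H764

noncomputable section

variable {N M : ℕ} [NeZero N] [NeZero M]

/-- local identification of the two tori near `0` -/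
def tr (N : ℕ) {M : ℕ} (w : ZMod M × ZMod M) : ZMod N × ZMod N :=
  ((w.1.valMinAbs : ZMod N), (w.2.valMinAbs : ZMod N))

/-- sup distance to `0` less than `r` -/
def inR (r : ℕ) (w : ZMod M × ZMod M) : Prop :=
  w.1.valMinAbs.natAbs < r ∧ w.2.valMinAbs.natAbs < r

instance (r : ℕ) : DecidablePred (inR (M := M) r) := fun _ => instDecidableAnd

/-- the common part of `G'` and `G` at distance `< r` -/
def cut (r : ℕ) (G : ZMod N × ZMod N → ℝ) (G' : ZMod M × ZMod M → ℝ) (w : ZMod M × ZMod M) : ℝ :=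
  if inR r w then min (G' w) (G (tr N w)) else 0

/-- second moment -/
def M2 (G : ZMod N × ZMod N → ℝ) : ℝ := ∑ w, (w.1.valMinAbs : ℝ) ^ 2 * G w

lemma cut_nonneg {r : ℕ} {G : ZMod N × ZMod N → ℝ} {G' : ZMod M × ZMod M → ℝ}
    (hG : ∀ w, 0 ≤ G w) (hG' : ∀ w, 0 ≤ G' w) (w : ZMod M × ZMod M) : 0 ≤ cut r G G' w := by
  unfold cut
  split_ifs
  · exact le_min (hG' _) (hG _)
  · exact le_rfl

lemma cut_le {r : ℕ} {G : ZMod N × ZMod N → ℝ} {G' : ZMod M × ZMod M → ℝ}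
    (hG' : ∀ w, 0 ≤ G' w) (w : ZMod M × ZMod M) : cut r G G' w ≤ G' w := by
  unfold cut
  split_ifs
  · exact min_le_left _ _
  · exact hG' _

lemma cut_le_tr {r : ℕ} {G : ZMod N × ZMod N → ℝ} {G' : ZMod M × ZMod M → ℝ}
    {w : ZMod M × ZMod M} (hw : inR r w) : cut r G G' w ≤ G (tr N w) := by
  unfold cut
  rw [if_pos hw]
  exact min_le_right _ _

lemma neg_vma {r : ℕ} (hr : 2 * r ≤ M) {x : ZMod M} (hx : x.valMinAbs.natAbs < r) :
    (-x).valMinAbs = -x.valMinAbs := by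
  apply ZMod.valMinAbs_neg_of_ne_half
  intro h
  have h1 : x.valMinAbs.natAbs = min x.val (M - x.val) := ZMod.valMinAbs_natAbs_eq_min x
  rw [h1] at hx
  omega

lemma inR_refl {r : ℕ} (w : ZMod M × ZMod M) : inR r ((-w.1, w.2) : ZMod M × ZMod M) ↔ inR r w := by
  unfold inR
  simp only [ZMod.natAbs_valMinAbs_neg]

lemma inR_swap {r : ℕ} (w : ZMod M × ZMod M) : inR r ((w.2, w.1) : ZMod M × ZMod M) ↔ inR r w := by
  unfold inR
  exact and_comm

lemma cut_refl {r : ℕ} (hr : 2 * r ≤ M) {G : ZMod N × ZMod N → ℝ} {G' : ZMod M × ZMod M → ℝ}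
    (hG : ∀ w, G (-w.1, w.2) = G w) (hG' : ∀ w, G' (-w.1, w.2) = G' w) (w : ZMod M × ZMod M) :
    cut r G G' (-w.1, w.2) = cut r G G' w := by
  unfold cut
  by_cases h : inR r w
  · rw [if_pos h, if_pos ((inR_refl w).2 h), hG']
    congr 1
    have e : tr N ((-w.1, w.2) : ZMod M × ZMod M) = (-(tr N w).1, (tr N w).2) := by
      unfold tr
      simp only [neg_vma hr h.1, Int.cast_neg]
    rw [e, hG]
  · rw [if_neg h, if_neg (fun h' => h ((inR_refl w).1 h'))]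

lemma cut_swap {r : ℕ} {G : ZMod N × ZMod N → ℝ} {G' : ZMod M × ZMod M → ℝ}
    (hG : ∀ w, G (w.2, w.1) = G w) (hG' : ∀ w, G' (w.2, w.1) = G' w) (w : ZMod M × ZMod M) :
    cut r G G' (w.2, w.1) = cut r G G' w := by
  unfold cut
  by_cases h : inR r w
  · rw [if_pos h, if_pos ((inR_swap w).2 h), hG']
    congr 1
    exact hG (tr N w)
  · rw [if_neg h, if_neg (fun h' => h ((inR_swap w).1 h'))]

lemma vma_cast {r : ℕ} (hN : 2 * r ≤ N) {m : ℤ} (hm : m.natAbs < r) :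
    ((m : ZMod N)).valMinAbs = m := by
  rw [ZMod.valMinAbs_spec]
  refine ⟨rfl, ?_⟩
  constructor <;> omega

lemma tr_vma {r : ℕ} (hN : 2 * r ≤ N) {w : ZMod M × ZMod M} (hw : inR r w) :
    (tr N w).1.valMinAbs = w.1.valMinAbs ∧ (tr N w).2.valMinAbs = w.2.valMinAbs :=
  ⟨vma_cast hN hw.1, vma_cast hN hw.2⟩

/-- the local identification is injective -/
lemma tr_inj {r : ℕ} (hN : 2 * r ≤ N) {w w' : ZMod M × ZMod M} (hw : inR r w) (hw' : inR r w')
    (h : tr N w = tr N w') : w = w' := by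
  have h1 := tr_vma hN hw
  have h2 := tr_vma hN hw'
  rw [h] at h1
  refine Prod.ext ?_ ?_
  · exact ZMod.injective_valMinAbs (by rw [← h1.1, h2.1])
  · exact ZMod.injective_valMinAbs (by rw [← h1.2, h2.2])

/-- sums of the cut kernel against a function `φ ≥ 0` of the position are dominated by `G` -/
lemma sum_cut_le {r : ℕ} (hN : 2 * r ≤ N) {G : ZMod N × ZMod N → ℝ} {G' : ZMod M × ZMod M → ℝ}
    (hG : ∀ w, 0 ≤ G w) (φ : ℤ → ℤ → ℝ) (hφ : ∀ i j, 0 ≤ φ i j) :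
    ∑ w : ZMod M × ZMod M, φ w.1.valMinAbs w.2.valMinAbs * cut r G G' w ≤
      ∑ w : ZMod N × ZMod N, φ w.1.valMinAbs w.2.valMinAbs * G w := by
  classical
  have h1 : ∑ w : ZMod M × ZMod M, φ w.1.valMinAbs w.2.valMinAbs * cut r G G' w =
      ∑ w ∈ univ.filter (inR (M := M) r), φ w.1.valMinAbs w.2.valMinAbs * cut r G G' w := by
    rw [sum_filter]
    refine sum_congr rfl fun w _ => ?_
    split_ifs with h
    · rfl
    · unfold cut
      rw [if_neg h, mul_zero]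
  rw [h1]
  calc ∑ w ∈ univ.filter (inR (M := M) r), φ w.1.valMinAbs w.2.valMinAbs * cut r G G' w
      ≤ ∑ w ∈ univ.filter (inR (M := M) r),
          φ (tr N w).1.valMinAbs (tr N w).2.valMinAbs * G (tr N w) := by
        refine sum_le_sum fun w hw => ?_
        have hw' := (mem_filter.1 hw).2
        rw [(tr_vma hN hw').1, (tr_vma hN hw').2]
        exact mul_le_mul_of_nonneg_left (cut_le_tr hw') (hφ _ _)
    _ = ∑ z ∈ (univ.filter (inR (M := M) r)).image (tr N),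
          φ z.1.valMinAbs z.2.valMinAbs * G z := by
        rw [sum_image]
        intro w hw w' hw' h
        exact tr_inj hN (mem_filter.1 hw).2 (mem_filter.1 hw').2 h
    _ ≤ ∑ w : ZMod N × ZMod N, φ w.1.valMinAbs w.2.valMinAbs * G w :=
        sum_le_sum_of_subset_of_nonneg (subset_univ _)
          fun w _ _ => mul_nonneg (hφ _ _) (hG _)

lemma M2_cut_le {r : ℕ} (hN : 2 * r ≤ N) {G : ZMod N × ZMod N → ℝ} {G' : ZMod M × ZMod M → ℝ}
    (hG : ∀ w, 0 ≤ G w) : M2 (cut r G G') ≤ M2 G := by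
  unfold M2
  exact sum_cut_le (G' := G') hN hG (fun i _ => (i : ℝ) ^ 2) fun _ _ => sq_nonneg _

/-- quadratic form in terms of increments -/
lemma frm_eq_Q (K : ZMod M × ZMod M → ℝ) (u : ZMod M × ZMod M → ℝ) :
    frm K u = Gh K 0 * (∑ x, u x ^ 2) - 1 / 2 * ∑ w, K w * Q u w := by
  have h1 : frm K u = ∑ w, K w * ∑ x, u x * u (x + w) := by
    unfold frm
    simp only [mul_sum]
    rw [sum_comm' (s := univ) (t := fun _ => univ) (t' := univ) (s' := fun _ => univ)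
      (h := fun _ _ => by simp)]
    have h2 : ∀ x : ZMod M × ZMod M, ∑ z, K (z - x) * u x * u z =
        ∑ w, K w * (u x * u (x + w)) := by
      intro x
      rw [← Equiv.sum_comp (Equiv.addLeft x)]
      refine sum_congr rfl fun w _ => ?_
      simp only [Equiv.coe_addLeft, add_sub_cancel_left]
      ring
    rw [sum_comm]
    simp_rw [h2]
    rw [sum_comm]
  have h3 : ∀ w, ∑ x, u x * u (x + w) = (∑ x, u x ^ 2) - 1 / 2 * Q u w := by
    intro w
    rw [Q_eq u w]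
    ring
  have h4 : Gh K 0 = ∑ w, K w := by
    rw [Gh_dt]
    refine sum_congr rfl fun w _ => ?_
    have : dt (0 : ZMod M × ZMod M) w = 0 := by simp [dt]
    rw [this, cN_zero, mul_one]
  rw [h1, h4, sum_mul, mul_sum, ← sum_sub_distrib]
  refine sum_congr rfl fun w _ => ?_
  rw [h3 w]
  ring

lemma Gh_zero (K : ZMod M × ZMod M → ℝ) : Gh K 0 = ∑ w, K w := by
  rw [Gh_dt]
  refine sum_congr rfl fun w _ => ?_
  have : dt (0 : ZMod M × ZMod M) w = 0 := by simp [dt]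
  rw [this, cN_zero, mul_one]

lemma Q_le_four (u : ZMod M × ZMod M → ℝ) (w : ZMod M × ZMod M) :
    Q u w ≤ 4 * ∑ x, u x ^ 2 := by
  have h : ∑ x, u (x + w) ^ 2 = ∑ x, u x ^ 2 :=
    Equiv.sum_comp (Equiv.addRight w) (fun x => u x ^ 2)
  have h2 : 4 * ∑ x, u x ^ 2 = ∑ x, (2 * u (x + w) ^ 2 + 2 * u x ^ 2) := by
    rw [sum_add_distrib, ← mul_sum, ← mul_sum, h]
    ring
  rw [h2]
  unfold Q
  refine sum_le_sum fun x _ => ?_
  nlinarith [sq_nonneg (u (x + w) + u x)]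

/-- the hypotheses of the transfer -/
structure Near (r : ℕ) (ξ e : ℝ) (G : ZMod N × ZMod N → ℝ) (G' : ZMod M × ZMod M → ℝ) : Prop where
  hN : 2 * r ≤ N
  hM : 2 * r ≤ M
  pos : ∀ w, 0 ≤ G w
  pos' : ∀ w, 0 ≤ G' w
  refl : ∀ w, G (-w.1, w.2) = G w
  refl' : ∀ w, G' (-w.1, w.2) = G' w
  swap : ∀ w, G (w.2, w.1) = G w
  swap' : ∀ w, G' (w.2, w.1) = G' w
  sus : Gh G 0 ≤ ξ ^ 2
  sus' : Gh G' 0 ≤ ξ ^ 2
  low : (1 - e) * ξ ^ 2 ≤ ∑ w, cut r G G' w

/-- (1) susceptibility -/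
theorem Near.zero {r : ℕ} {ξ e : ℝ} {G : ZMod N × ZMod N → ℝ} {G' : ZMod M × ZMod M → ℝ}
    (h : Near r ξ e G G') : (1 - e) * ξ ^ 2 ≤ Gh G' 0 := by
  rw [Gh_zero]
  exact h.low.trans (sum_le_sum fun w _ => cut_le h.pos' w)

theorem Near.rest {r : ℕ} {ξ e : ℝ} {G : ZMod N × ZMod N → ℝ} {G' : ZMod M × ZMod M → ℝ}
    (h : Near r ξ e G G') : ∑ w, (G' w - cut r G G' w) ≤ e * ξ ^ 2 := by
  rw [sum_sub_distrib, ← Gh_zero]
  linarith [h.low, h.sus']

/-- (2) the one scale hypothesis on the new torus, slope = second moment on the old torus -/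
theorem Near.qu {r : ℕ} {ξ e a : ℝ} {G : ZMod N × ZMod N → ℝ} {G' : ZMod M × ZMod M → ℝ}
    (h : Near r ξ e G G') (ha : M2 G ≤ 2 * a * ξ ^ 4) : QU ξ G' (3 * e) a := by
  intro u
  rw [frm_eq_Q]
  have h0 := h.zero
  have h1 := h.rest
  have hu : 0 ≤ ∑ x, u x ^ 2 := sum_nonneg fun _ _ => sq_nonneg _
  have h2 : ∑ w, G' w * Q u w ≤ ∑ w, cut r G G' w * Q u w + e * ξ ^ 2 * (4 * ∑ x, u x ^ 2) := by
    have h3 : ∑ w, (G' w - cut r G G' w) * Q u w ≤
        ∑ w, (G' w - cut r G G' w) * (4 * ∑ x, u x ^ 2) :=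
      sum_le_sum fun w _ => mul_le_mul_of_nonneg_left (Q_le_four u w)
        (sub_nonneg.2 (cut_le h.pos' w))
    rw [← sum_mul] at h3
    have h4 : ∑ w, (G' w - cut r G G' w) * Q u w = ∑ w, G' w * Q u w -
        ∑ w, cut r G G' w * Q u w := by
      rw [← sum_sub_distrib]
      exact sum_congr rfl fun w _ => by ring
    have h5 := mul_le_mul_of_nonneg_right h1 (by positivity : 0 ≤ 4 * ∑ x, u x ^ 2)
    linarith
  have h6 := dirichlet_le (cut r G G') (cut_nonneg h.pos h.pos') (cut_refl h.hM h.refl h.refl')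
    (cut_swap h.swap h.swap') u
  have h7 : (∑ w : ZMod M × ZMod M, (w.1.valMinAbs : ℝ) ^ 2 * cut r G G' w) ≤ 2 * a * ξ ^ 4 :=
    (M2_cut_le h.hN h.pos).trans ha
  have hg : 0 ≤ Q u (1, 0) + Q u (0, 1) := add_nonneg (Q_nonneg _ _) (Q_nonneg _ _)
  have h8 := mul_le_mul_of_nonneg_right h7 hg
  have h9 := mul_le_mul_of_nonneg_right h0 hu
  unfold grd
  nlinarith

/-! ### `(H2)` -/

/-- trigonometric transform at a real wave number -/
def TT (K : ZMod M × ZMod M → ℝ) (θ₁ θ₂ : ℝ) : ℝ :=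
  ∑ w, K w * Real.cos (θ₁ * w.1.valMinAbs + θ₂ * w.2.valMinAbs)

lemma cN_dt (k w : ZMod M × ZMod M) :
    cN (dt k w) = Real.cos (pw k.1 * w.1.valMinAbs + pw k.2 * w.2.valMinAbs) := by
  have h : dt k w = (((k.1.valMinAbs * w.1.valMinAbs + k.2.valMinAbs * w.2.valMinAbs : ℤ)) :
      ZMod M) := by
    unfold dt
    push_cast
    simp only
  rw [h, cN_int]
  congr 1
  unfold pw
  push_cast
  ring

lemma Gh_TT (K : ZMod M × ZMod M → ℝ) (k : ZMod M × ZMod M) : Gh K k = TT K (pw k.1) (pw k.2) := by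
  rw [Gh_dt]
  unfold TT
  exact sum_congr rfl fun w _ => by rw [cN_dt]

/-- transform of `G'` against the transform of `G` at the same real wave number -/
theorem Near.TT_ge {r : ℕ} {ξ e : ℝ} {G : ZMod N × ZMod N → ℝ} {G' : ZMod M × ZMod M → ℝ}
    (h : Near r ξ e G G') (θ₁ θ₂ : ℝ) : TT G θ₁ θ₂ - 2 * e * ξ ^ 2 ≤ TT G' θ₁ θ₂ := by
  have h1 := sum_cut_le (G' := G') h.hN h.pos (fun i j => 1 - Real.cos (θ₁ * i + θ₂ * j))
    fun _ _ => sub_nonneg.2 (Real.cos_le_one _)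
  have h2 : ∑ w : ZMod M × ZMod M, (1 - Real.cos (θ₁ * w.1.valMinAbs + θ₂ * w.2.valMinAbs)) *
      cut r G G' w = ∑ w, cut r G G' w - TT (cut r G G') θ₁ θ₂ := by
    unfold TT
    rw [← sum_sub_distrib]
    exact sum_congr rfl fun w _ => by ring
  have h3 : ∑ w : ZMod N × ZMod N, (1 - Real.cos (θ₁ * w.1.valMinAbs + θ₂ * w.2.valMinAbs)) *
      G w = ∑ w, G w - TT G θ₁ θ₂ := by
    unfold TT
    rw [← sum_sub_distrib]
    exact sum_congr rfl fun w _ => by ring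
  have h4 : TT (cut r G G') θ₁ θ₂ - ∑ w, (G' w - cut r G G' w) ≤ TT G' θ₁ θ₂ := by
    unfold TT
    rw [← sum_sub_distrib]
    refine sum_le_sum fun w _ => ?_
    have h5 := Real.neg_one_le_cos (θ₁ * w.1.valMinAbs + θ₂ * w.2.valMinAbs)
    nlinarith [cut_le (N := N) (r := r) (G := G) h.pos' w]
  have h6 := h.rest
  have h7 := h.low
  have h8 := h.sus
  rw [Gh_zero] at h8
  rw [h2, h3] at h1
  linarith

/-- first moments from second moments -/
lemma M1_le {ξ a : ℝ} (hξ : 0 < ξ) {G : ZMod N × ZMod N → ℝ} (hG : ∀ w, 0 ≤ G w)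
    (hs : ∀ w, G (w.2, w.1) = G w) (h0 : Gh G 0 ≤ ξ ^ 2) (ha : M2 G ≤ 2 * a * ξ ^ 4) :
    ∑ w : ZMod N × ZMod N, (|(w.1.valMinAbs : ℝ)| + |(w.2.valMinAbs : ℝ)|) * G w ≤
      (1 + 2 * a) * ξ ^ 3 := by
  have h1 : ∑ w : ZMod N × ZMod N, |(w.2.valMinAbs : ℝ)| * G w =
      ∑ w : ZMod N × ZMod N, |(w.1.valMinAbs : ℝ)| * G w := by
    rw [← Equiv.sum_comp (Equiv.prodComm (ZMod N) (ZMod N))]
    refine sum_congr rfl fun w _ => ?_
    have := hs w
    simp only [Equiv.prodComm_apply, Prod.swap]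
    rw [this]
  have h2 : ∑ w : ZMod N × ZMod N, |(w.1.valMinAbs : ℝ)| * G w ≤
      (ξ * Gh G 0 + M2 G / ξ) / 2 := by
    rw [Gh_zero]
    unfold M2
    rw [mul_sum, sum_div, ← sum_add_distrib, sum_div]
    refine sum_le_sum fun w _ => ?_
    have h3 : |(w.1.valMinAbs : ℝ)| ≤ (ξ + (w.1.valMinAbs : ℝ) ^ 2 / ξ) / 2 := by
      have h4 : ξ * (2 * |(w.1.valMinAbs : ℝ)|) ≤ ξ * (ξ + (w.1.valMinAbs : ℝ) ^ 2 / ξ) := by
        have h5 : ξ * (ξ + (w.1.valMinAbs : ℝ) ^ 2 / ξ) = ξ ^ 2 + (w.1.valMinAbs : ℝ) ^ 2 := by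
          field_simp
        rw [h5, ← sq_abs (w.1.valMinAbs : ℝ)]
        nlinarith [sq_nonneg (ξ - |(w.1.valMinAbs : ℝ)|)]
      have := le_of_mul_le_mul_left h4 hξ
      linarith
    have h6 := mul_le_mul_of_nonneg_right h3 (hG w)
    refine h6.trans (le_of_eq ?_)
    field_simp
  have h7 : M2 G / ξ ≤ 2 * a * ξ ^ 3 := by
    rw [div_le_iff₀ hξ]
    linarith [ha, (by ring : 2 * a * ξ ^ 3 * ξ = 2 * a * ξ ^ 4)]
  have h8 : ξ * Gh G 0 ≤ ξ ^ 3 := by
    have := mul_le_mul_of_nonneg_left h0 hξ.le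
    linarith [(by ring : ξ * ξ ^ 2 = ξ ^ 3)]
  simp only [add_mul]
  rw [sum_add_distrib, h1]
  linarith

/-- the transform is Lipschitz -/
lemma TT_lip {ξ a : ℝ} (hξ : 0 < ξ) {G : ZMod N × ZMod N → ℝ} (hG : ∀ w, 0 ≤ G w)
    (hs : ∀ w, G (w.2, w.1) = G w) (h0 : Gh G 0 ≤ ξ ^ 2) (ha : M2 G ≤ 2 * a * ξ ^ 4)
    {d θ₁ θ₂ p₁ p₂ : ℝ} (hd : 0 ≤ d) (h1 : |θ₁ - p₁| ≤ d) (h2 : |θ₂ - p₂| ≤ d) :
    TT G p₁ p₂ - d * ((1 + 2 * a) * ξ ^ 3) ≤ TT G θ₁ θ₂ := by
  have h3 : TT G p₁ p₂ - TT G θ₁ θ₂ ≤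
      ∑ w : ZMod N × ZMod N, d * ((|(w.1.valMinAbs : ℝ)| + |(w.2.valMinAbs : ℝ)|) * G w) := by
    unfold TT
    rw [← sum_sub_distrib]
    refine sum_le_sum fun w _ => ?_
    have h4 : Real.cos (p₁ * w.1.valMinAbs + p₂ * w.2.valMinAbs) -
        Real.cos (θ₁ * w.1.valMinAbs + θ₂ * w.2.valMinAbs) ≤
        d * (|(w.1.valMinAbs : ℝ)| + |(w.2.valMinAbs : ℝ)|) := by
      have h5 := (abs_le.1 (Real.abs_cos_sub_cos_le (p₁ * w.1.valMinAbs + p₂ * w.2.valMinAbs)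
        (θ₁ * w.1.valMinAbs + θ₂ * w.2.valMinAbs))).2
      refine h5.trans ?_
      have h6 : p₁ * (w.1.valMinAbs : ℝ) + p₂ * w.2.valMinAbs -
          (θ₁ * w.1.valMinAbs + θ₂ * w.2.valMinAbs) =
          -((θ₁ - p₁) * w.1.valMinAbs + (θ₂ - p₂) * w.2.valMinAbs) := by ring
      rw [h6, abs_neg]
      refine (abs_add_le _ _).trans ?_
      rw [abs_mul, abs_mul, mul_add]
      gcongr
    have h7 := mul_le_mul_of_nonneg_left h4 (hG w)
    linarith
  rw [← mul_sum] at h3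
  have h8 := mul_le_mul_of_nonneg_left (M1_le hξ hG hs h0 ha) hd
  linarith

/-- rounding of a wave number of the torus `M` to a wave number of the torus `N` -/
lemma exists_mode (N : ℕ) [NeZero N] (x : ZMod M) :
    ∃ j : ZMod N, |pw j| ≤ |pw x| ∧ |pw x - pw j| ≤ 2 * Real.pi / N := by
  have hM : (0 : ℤ) < (M : ℤ) := by exact_mod_cast NeZero.pos M
  have hN : (0 : ℤ) < (N : ℤ) := by exact_mod_cast NeZero.pos N
  have hMr : (0 : ℝ) < (M : ℝ) := by exact_mod_cast NeZero.pos M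
  have hNr : (0 : ℝ) < (N : ℝ) := by exact_mod_cast NeZero.pos N
  set κ := x.valMinAbs with hκ
  have hk := (ZMod.valMinAbs_mem_Ioc x)
  rw [← hκ] at hk
  set m : ℤ := (κ * N).tdiv M with hm
  -- bounds of `m`
  have hb : (0 ≤ κ → 0 ≤ m ∧ m * M ≤ κ * N ∧ κ * N < m * M + M) ∧
      (κ ≤ 0 → m ≤ 0 ∧ κ * N ≤ m * M ∧ m * M < κ * N + M) := by
    constructor
    · intro h
      have h0 : 0 ≤ κ * N := by positivity
      have h1 : m = (κ * N) / M := by rw [hm, Int.tdiv_eq_ediv_of_nonneg h0]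
      rw [h1]
      refine ⟨Int.ediv_nonneg h0 hM.le, Int.ediv_mul_le _ hM.ne', ?_⟩
      have := Int.lt_ediv_add_one_mul_self (κ * N) hM
      linarith
    · intro h
      have h0 : 0 ≤ (-κ) * N := by
        have : 0 ≤ -κ := by omega
        positivity
      have h1 : m = -(((-κ) * N) / M) := by
        rw [← Int.tdiv_eq_ediv_of_nonneg h0, hm, neg_mul, Int.neg_tdiv, neg_neg]
      have h2 := Int.ediv_nonneg h0 hM.le
      have h3 := Int.ediv_mul_le ((-κ) * N) hM.ne'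
      have h4 := Int.lt_ediv_add_one_mul_self ((-κ) * N) hM
      rw [h1]
      refine ⟨by omega, by linarith, by linarith⟩
  have hval : ((m : ZMod N)).valMinAbs = m := by
    rw [ZMod.valMinAbs_spec]
    refine ⟨rfl, ?_⟩
    rcases le_total 0 κ with h | h
    · obtain ⟨h1, h2, h3⟩ := hb.1 h
      constructor
      · have : (0 : ℤ) ≤ m * 2 := by omega
        linarith
      · have h5 : m * M * 2 ≤ M * N := by nlinarith [hk.2]
        have h6 : (m * 2) * M ≤ N * M := by linarith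
        exact le_of_mul_le_mul_right h6 hM
    · obtain ⟨h1, h2, h3⟩ := hb.2 h
      constructor
      · have h5 : -(M * N : ℤ) < m * M * 2 := by nlinarith [hk.1]
        have h6 : (-N) * M < (m * 2) * M := by linarith
        exact lt_of_mul_lt_mul_right h6 hM.le
      · have : m * 2 ≤ 0 := by omega
        linarith
  refine ⟨(m : ZMod N), ?_, ?_⟩
  · unfold pw
    rw [hval, ← hκ]
    have h7 : |(m : ℝ)| * M ≤ |(κ : ℝ)| * N := by
      rcases le_total 0 κ with h | h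
      · obtain ⟨h1, h2, h3⟩ := hb.1 h
        rw [abs_of_nonneg (by exact_mod_cast h1), abs_of_nonneg (by exact_mod_cast h)]
        exact_mod_cast h2
      · obtain ⟨h1, h2, h3⟩ := hb.2 h
        rw [abs_of_nonpos (by exact_mod_cast h1), abs_of_nonpos (by exact_mod_cast h)]
        have : (κ : ℝ) * N ≤ m * M := by exact_mod_cast h2
        linarith
    rw [abs_div, abs_div, abs_of_pos hNr, abs_of_pos hMr, abs_mul (2 * Real.pi) (m : ℝ),
      abs_mul (2 * Real.pi) (κ : ℝ), div_le_div_iff₀ hNr hMr, mul_assoc, mul_assoc]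
    exact mul_le_mul_of_nonneg_left h7 (abs_nonneg _)
  · unfold pw
    rw [hval, ← hκ]
    have h7 : |(κ : ℝ) * N - m * M| ≤ M := by
      rcases le_total 0 κ with h | h
      · obtain ⟨h1, h2, h3⟩ := hb.1 h
        have h2' : (m : ℝ) * M ≤ κ * N := by exact_mod_cast h2
        have h3' : (κ : ℝ) * N < m * M + M := by exact_mod_cast h3
        rw [abs_le]
        constructor <;> linarith
      · obtain ⟨h1, h2, h3⟩ := hb.2 h
        have h2' : (κ : ℝ) * N ≤ m * M := by exact_mod_cast h2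
        have h3' : (m : ℝ) * M < κ * N + M := by exact_mod_cast h3
        rw [abs_le]
        constructor <;> linarith
    have h9 : 2 * Real.pi * (κ : ℝ) / M - 2 * Real.pi * m / N =
        2 * Real.pi / N * (((κ : ℝ) * N - m * M) / M) := by
      field_simp
    rw [h9, abs_mul, abs_of_pos (by positivity : 0 < 2 * Real.pi / N)]
    have h10 : |((κ : ℝ) * N - m * M) / M| ≤ 1 := by
      rw [abs_div, abs_of_pos hMr, div_le_one hMr]
      exact h7
    calc 2 * Real.pi / N * |((κ : ℝ) * N - m * M) / M| ≤ 2 * Real.pi / N * 1 := by gcongr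
      _ = 2 * Real.pi / N := mul_one _

/-- (3) the crude lower bound `(H2)` on the new torus -/
theorem Near.h2 {r : ℕ} {ξ e a C2 C2' W : ℝ} {G : ZMod N × ZMod N → ℝ}
    {G' : ZMod M × ZMod M → ℝ} (h : Near r ξ e G G') (hξ : 0 < ξ) (ha : M2 G ≤ 2 * a * ξ ^ 4)
    (hC : 0 < C2) (hC' : 0 ≤ C2') (h2 : H2 C2 W ξ G)
    (hs : (2 * e + 2 * Real.pi * (1 + 2 * a) * (ξ / N)) * (C2 * C2' * (1 + 2 * W ^ 2)) ≤
      C2' - C2) : H2 C2' W ξ G' := by
  intro k hk1 hk2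
  obtain ⟨j1, hj1, hd1⟩ := exists_mode N k.1
  obtain ⟨j2, hj2, hd2⟩ := exists_mode N k.2
  have hN : (0 : ℝ) < (N : ℝ) := by exact_mod_cast NeZero.pos N
  have hg := h2 (j1, j2) (hj1.trans hk1) (hj2.trans hk2)
  simp only at hg
  have hpos := h2.pos hC.le (j1, j2) (hj1.trans hk1) (hj2.trans hk2)
  have q1 : pw j1 ^ 2 ≤ pw k.1 ^ 2 := sq_le_sq.2 hj1
  have q2 : pw j2 ^ 2 ≤ pw k.2 ^ 2 := sq_le_sq.2 hj2
  have hlip := TT_lip hξ h.pos h.swap h.sus ha (by positivity : 0 ≤ 2 * Real.pi / (N : ℝ)) hd1 hd2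
  have hT := h.TT_ge (pw k.1) (pw k.2)
  rw [Gh_TT]
  rw [Gh_TT] at hg hpos
  simp only at hg hpos
  set g := TT G (pw j1) (pw j2) with hgdef
  set S := 1 / ξ ^ 2 + pw k.1 ^ 2 + pw k.2 ^ 2 with hS
  have hSpos : 0 < S := by positivity
  -- `S ≤ (1 + 2 W²) / ξ²`
  have w1 : pw k.1 ^ 2 ≤ W ^ 2 / ξ ^ 2 := by
    rw [← sq_abs, ← div_pow]
    exact pow_le_pow_left₀ (abs_nonneg _) hk1 2
  have w2 : pw k.2 ^ 2 ≤ W ^ 2 / ξ ^ 2 := by
    rw [← sq_abs, ← div_pow]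
    exact pow_le_pow_left₀ (abs_nonneg _) hk2 2
  have hS2 : S * ξ ^ 2 ≤ 1 + 2 * W ^ 2 := by
    have h5 : S ≤ (1 + 2 * W ^ 2) / ξ ^ 2 := by
      rw [hS]
      have : (1 + 2 * W ^ 2) / ξ ^ 2 = 1 / ξ ^ 2 + W ^ 2 / ξ ^ 2 + W ^ 2 / ξ ^ 2 := by ring
      rw [this]
      linarith
    rwa [le_div_iff₀ (by positivity)] at h5
  have hg2 : 1 ≤ C2 * S * g := by
    refine hg.trans ?_
    have : 1 / ξ ^ 2 + pw j1 ^ 2 + pw j2 ^ 2 ≤ S := by rw [hS]; linarith
    gcongr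
  set d := 2 * e + 2 * Real.pi * (1 + 2 * a) * (ξ / N) with hd
  have hT2 : g - d * ξ ^ 2 ≤ TT G' (pw k.1) (pw k.2) := by
    have : d * ξ ^ 2 = 2 * e * ξ ^ 2 + 2 * Real.pi / N * ((1 + 2 * a) * ξ ^ 3) := by
      rw [hd]
      field_simp
    linarith
  have h10 : C2' * S * (g - d * ξ ^ 2) ≤ C2' * S * TT G' (pw k.1) (pw k.2) :=
    mul_le_mul_of_nonneg_left hT2 (by positivity)
  refine le_trans ?_ h10
  -- `C2 * (C2' S (g - d ξ²)) ≥ C2' - C2 C2' S d ξ² ≥ C2`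
  have h11 : C2' ≤ C2' * (C2 * S * g) := by nlinarith
  have h12 : d * (S * ξ ^ 2) * (C2 * C2') ≤ C2' - C2 ∨ d < 0 := by
    by_cases hd0 : 0 ≤ d
    · left
      refine le_trans ?_ hs
      have : d * (S * ξ ^ 2) * (C2 * C2') ≤ d * (1 + 2 * W ^ 2) * (C2 * C2') := by
        gcongr
      linarith
    · right
      exact not_le.1 hd0
  rcases h12 with h12 | h12
  · have h13 : C2 * 1 ≤ C2 * (C2' * S * (g - d * ξ ^ 2)) := by
      have : C2 * (C2' * S * (g - d * ξ ^ 2)) =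
          C2' * (C2 * S * g) - d * (S * ξ ^ 2) * (C2 * C2') := by ring
      rw [this]
      linarith
    exact le_of_mul_le_mul_left h13 hC
  · exfalso
    have hK := cut_nonneg (r := r) h.pos h.pos'
    have he : 0 ≤ e := by
      have h14 := h.low
      have h15 := h.rest
      have h16 : 0 ≤ ∑ w, (G' w - cut r G G' w) :=
        sum_nonneg fun w _ => sub_nonneg.2 (cut_le h.pos' w)
      have h17 : 0 ≤ e * ξ ^ 2 := h16.trans h15
      exact nonneg_of_mul_nonneg_left h17 (by positivity)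
    have ha0 : 0 ≤ a := by
      have h14 : 0 ≤ M2 G := sum_nonneg fun w _ => mul_nonneg (sq_nonneg _) (h.pos w)
      have h15 : 0 ≤ 2 * a * ξ ^ 4 := h14.trans ha
      have h16 : 0 ≤ 2 * a := nonneg_of_mul_nonneg_left h15 (by positivity)
      linarith
    have : 0 ≤ d := by rw [hd]; positivity
    linarith

/-- **Volume transfer of the one-scale hypothesis.** -/
theorem Near.hyp {r : ℕ} {ξ e a C2 C2' W : ℝ} {G : ZMod N × ZMod N → ℝ}
    {G' : ZMod M × ZMod M → ℝ} (h : Near r ξ e G G') (hξ : 0 < ξ) (ha : M2 G ≤ 2 * a * ξ ^ 4)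
    (hC : 0 < C2) (hC' : 0 ≤ C2') (h2 : H2 C2 W ξ G)
    (hs : (2 * e + 2 * Real.pi * (1 + 2 * a) * (ξ / N)) * (C2 * C2' * (1 + 2 * W ^ 2)) ≤
      C2' - C2) : Hyp C2' W ξ G' (3 * e) a :=
  ⟨h.qu ha, h.h2 hξ ha hC hC' h2 hs⟩

/-- (4) lower bound of the common part by entries `B u q` of a box -/
theorem cut_low {r : ℕ} (hM : 2 * r ≤ M) {G : ZMod N × ZMod N → ℝ}
    {G' : ZMod M × ZMod M → ℝ} (hG : ∀ w, 0 ≤ G w) (hG' : ∀ w, 0 ≤ G' w)
    (box : Finset (ℕ × ℕ)) (u : ℕ × ℕ) (B : ℕ × ℕ → ℝ)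
    (hr : ∀ q ∈ box, (((q.1 : ℤ) - u.1).natAbs < r ∧ ((q.2 : ℤ) - u.2).natAbs < r))
    (h1 : ∀ q ∈ box, B q ≤ G ((q.1 : ZMod N) - u.1, (q.2 : ZMod N) - u.2))
    (h2 : ∀ q ∈ box, B q ≤ G' ((q.1 : ZMod M) - u.1, (q.2 : ZMod M) - u.2)) :
    ∑ q ∈ box, B q ≤ ∑ w, cut r G G' w := by
  classical
  set f : ℕ × ℕ → ZMod M × ZMod M := fun q =>
    ((q.1 : ZMod M) - u.1, (q.2 : ZMod M) - u.2) with hf
  have c1 : ∀ q : ℕ × ℕ, ((q.1 : ZMod M) - u.1) = (((q.1 : ℤ) - u.1 : ℤ) : ZMod M) := by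
    intro q; push_cast; rfl
  have c2 : ∀ q : ℕ × ℕ, ((q.2 : ZMod M) - u.2) = (((q.2 : ℤ) - u.2 : ℤ) : ZMod M) := by
    intro q; push_cast; rfl
  have hv : ∀ q ∈ box, (f q).1.valMinAbs = (q.1 : ℤ) - u.1 ∧ (f q).2.valMinAbs = (q.2 : ℤ) - u.2 := by
    intro q hq
    simp only [hf]
    rw [c1, c2]
    exact ⟨vma_cast hM (hr q hq).1, vma_cast hM (hr q hq).2⟩
  have hin : ∀ q ∈ box, inR r (f q) := by
    intro q hq
    unfold inR
    rw [(hv q hq).1, (hv q hq).2]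
    exact hr q hq
  have hle : ∀ q ∈ box, B q ≤ cut r G G' (f q) := by
    intro q hq
    unfold cut
    rw [if_pos (hin q hq)]
    refine le_min (h2 q hq) ?_
    have e : tr N (f q) = ((q.1 : ZMod N) - u.1, (q.2 : ZMod N) - u.2) := by
      unfold tr
      rw [(hv q hq).1, (hv q hq).2]
      push_cast
      rfl
    rw [e]
    exact h1 q hq
  have hinj : Set.InjOn f box := by
    intro q hq q' hq' h
    have e1 := (hv q hq).1
    have e2 := (hv q hq).2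
    rw [h] at e1 e2
    rw [(hv q' hq').1] at e1
    rw [(hv q' hq').2] at e2
    exact Prod.ext (by omega) (by omega)
  calc ∑ q ∈ box, B q ≤ ∑ q ∈ box, cut r G G' (f q) := sum_le_sum hle
    _ = ∑ w ∈ box.image f, cut r G G' w := (sum_image hinj).symm
    _ ≤ ∑ w, cut r G G' w :=
        sum_le_sum_of_subset_of_nonneg (subset_univ _) fun w _ _ => cut_nonneg hG hG' w

end

end Vale.Agent.P159.TM.H705
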