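import Vale.Agent.P159.TM.H705.Near
import Vale.Agent.P159.TM.H459.Tor

/-!
Kernel side of the volume transfer (265 #16436 (3)), truncated moments only.

Tori of sides `N`, `M`, both `≥ K ξ`, `8 ≤ K`; kernels `G`, `G'`; `A u z` = covariance in the box
`1 ≤ i, j < K ξ` with zero boundary condition.
-/

set_option linter.unusedSectionVars false

namespace Vale.Agent.P159.TM.H705

open Finset Vale.Agent.P159.TM.H764
open Vale.Agent.P159.TM.H459 (sn sd ball)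

noncomputable section

variable {N M : ℕ} [NeZero N] [NeZero M]

lemma inR_iff {r : ℕ} (w : ZMod M × ZMod M) : inR (r + 1) w ↔ sn w ≤ r := by
  unfold inR sn
  rw [max_le_iff, Nat.lt_succ_iff, Nat.lt_succ_iff]

/-- truncated sum -/
def tsn (r : ℕ) (G : ZMod N × ZMod N → ℝ) (φ : ZMod N × ZMod N → ℝ) : ℝ :=
  ∑ w ∈ univ.filter (fun w : ZMod N × ZMod N => sn w ≤ r), φ w * G w

/-- sums of the cut kernel against a function `φ ≥ 0` of the position, truncated form -/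
lemma sum_cut_le' {r : ℕ} (hN : 2 * (r + 1) ≤ N) {G : ZMod N × ZMod N → ℝ}
    {G' : ZMod M × ZMod M → ℝ} (hG : ∀ w, 0 ≤ G w) (φ : ℤ → ℤ → ℝ) (hφ : ∀ i j, 0 ≤ φ i j) :
    ∑ w : ZMod M × ZMod M, φ w.1.valMinAbs w.2.valMinAbs * cut (r + 1) G G' w ≤
      tsn r G fun w => φ w.1.valMinAbs w.2.valMinAbs := by
  classical
  set G₁ : ZMod N × ZMod N → ℝ := fun w => if sn w ≤ r then G w else 0 with hG₁
  have h1 : ∀ w : ZMod M × ZMod M, cut (r + 1) G G' w = cut (r + 1) G₁ G' w := by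
    intro w
    unfold cut
    split_ifs with h
    · have h2 := tr_vma hN h
      have h3 : sn (tr N w) ≤ r := by
        rw [← inR_iff]
        unfold inR
        rw [h2.1, h2.2]
        exact h
      simp only [hG₁, if_pos h3]
    · rfl
  simp only [h1]
  have h4 := sum_cut_le (G := G₁) (G' := G') hN (fun w => by
    simp only [hG₁]; split_ifs
    · exact hG w
    · exact le_rfl) φ hφ
  refine h4.trans (le_of_eq ?_)
  unfold tsn
  rw [sum_filter]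
  refine sum_congr rfl fun w _ => ?_
  simp only [hG₁]
  split_ifs
  · rfl
  · rw [mul_zero]

/-- the one scale hypothesis on the new torus, truncated second moment -/
theorem Near.qu' {r : ℕ} {ξ e a : ℝ} {G : ZMod N × ZMod N → ℝ} {G' : ZMod M × ZMod M → ℝ}
    (h : Near (r + 1) ξ e G G')
    (ha : tsn r G (fun w => (w.1.valMinAbs : ℝ) ^ 2) ≤ 2 * a * ξ ^ 4) : QU ξ G' (3 * e) a := by
  intro u
  rw [frm_eq_Q]
  have h0 := h.zero
  have h1 := h.rest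
  have hu : 0 ≤ ∑ x, u x ^ 2 := sum_nonneg fun _ _ => sq_nonneg _
  have h2 : ∑ w, G' w * Q u w ≤
      ∑ w, cut (r + 1) G G' w * Q u w + e * ξ ^ 2 * (4 * ∑ x, u x ^ 2) := by
    have h3 : ∑ w, (G' w - cut (r + 1) G G' w) * Q u w ≤
        ∑ w, (G' w - cut (r + 1) G G' w) * (4 * ∑ x, u x ^ 2) :=
      sum_le_sum fun w _ => mul_le_mul_of_nonneg_left (Q_le_four u w)
        (sub_nonneg.2 (cut_le h.pos' w))
    rw [← sum_mul] at h3
    have h4 : ∑ w, (G' w - cut (r + 1) G G' w) * Q u w = ∑ w, G' w * Q u w -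
        ∑ w, cut (r + 1) G G' w * Q u w := by
      rw [← sum_sub_distrib]
      exact sum_congr rfl fun w _ => by ring
    have h5 := mul_le_mul_of_nonneg_right h1 (by positivity : 0 ≤ 4 * ∑ x, u x ^ 2)
    linarith
  have h6 := dirichlet_le (cut (r + 1) G G') (cut_nonneg h.pos h.pos')
    (cut_refl h.hM h.refl h.refl') (cut_swap h.swap h.swap') u
  have h7 : (∑ w : ZMod M × ZMod M, (w.1.valMinAbs : ℝ) ^ 2 * cut (r + 1) G G' w) ≤
      2 * a * ξ ^ 4 :=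
    (sum_cut_le' (G' := G') h.hN h.pos (fun i _ => (i : ℝ) ^ 2) fun _ _ => sq_nonneg _).trans ha
  have hg : 0 ≤ Q u (1, 0) + Q u (0, 1) := add_nonneg (Q_nonneg _ _) (Q_nonneg _ _)
  have h8 := mul_le_mul_of_nonneg_right h7 hg
  have h9 := mul_le_mul_of_nonneg_right h0 hu
  unfold grd
  nlinarith

/-- truncated first moments, both coordinates -/
lemma tsn_swap {r : ℕ} {G : ZMod N × ZMod N → ℝ} (hs : ∀ w, G (w.2, w.1) = G w) :
    tsn r G (fun w => |(w.2.valMinAbs : ℝ)|) = tsn r G fun w => |(w.1.valMinAbs : ℝ)| := by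
  have hsn : ∀ w : ZMod N × ZMod N, sn (w.2, w.1) = sn w := fun w => by
    unfold sn
    exact max_comm _ _
  unfold tsn
  refine sum_bij (fun w _ => (w.2, w.1)) ?_ ?_ ?_ ?_
  · intro w hw
    rw [mem_filter] at hw ⊢
    exact ⟨mem_univ _, by rw [hsn]; exact hw.2⟩
  · intro w _ w' _ h
    exact Prod.ext (congrArg Prod.snd h) (congrArg Prod.fst h)
  · intro w hw
    refine ⟨(w.2, w.1), ?_, rfl⟩
    rw [mem_filter] at hw ⊢
    exact ⟨mem_univ _, by rw [hsn]; exact hw.2⟩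
  · intro w _
    rw [hs w]

/-- transform of `G'` at a real wave number close to a mode of `G` -/
theorem Near.mode {r : ℕ} {ξ e C₁ : ℝ} {G : ZMod N × ZMod N → ℝ} {G' : ZMod M × ZMod M → ℝ}
    (h : Near (r + 1) ξ e G G')
    (h6 : tsn r G (fun w => |(w.1.valMinAbs : ℝ)|) ≤ C₁ * ξ ^ 3)
    {d θ₁ θ₂ p₁ p₂ : ℝ} (hd : 0 ≤ d) (h1 : |θ₁ - p₁| ≤ d) (h2 : |θ₂ - p₂| ≤ d) :
    TT G p₁ p₂ - 2 * e * ξ ^ 2 - d * (2 * C₁ * ξ ^ 3) ≤ TT G' θ₁ θ₂ := by
  have k1 := sum_cut_le' (G' := G') h.hN h.pos (fun i j => 1 - Real.cos (θ₁ * i + θ₂ * j))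
    fun _ _ => sub_nonneg.2 (Real.cos_le_one _)
  have k2 : ∑ w : ZMod M × ZMod M, (1 - Real.cos (θ₁ * w.1.valMinAbs + θ₂ * w.2.valMinAbs)) *
      cut (r + 1) G G' w = ∑ w, cut (r + 1) G G' w - TT (cut (r + 1) G G') θ₁ θ₂ := by
    unfold TT
    rw [← sum_sub_distrib]
    exact sum_congr rfl fun w _ => by ring
  have k3 : tsn r G (fun w => 1 - Real.cos (θ₁ * w.1.valMinAbs + θ₂ * w.2.valMinAbs)) ≤
      tsn r G (fun w => 1 - Real.cos (p₁ * w.1.valMinAbs + p₂ * w.2.valMinAbs)) +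
        d * (tsn r G (fun w => |(w.1.valMinAbs : ℝ)|) +
          tsn r G fun w => |(w.2.valMinAbs : ℝ)|) := by
    unfold tsn
    rw [← sum_add_distrib, mul_sum, ← sum_add_distrib]
    refine sum_le_sum fun w _ => ?_
    have h4 : Real.cos (p₁ * w.1.valMinAbs + p₂ * w.2.valMinAbs) -
        Real.cos (θ₁ * w.1.valMinAbs + θ₂ * w.2.valMinAbs) ≤
        d * (|(w.1.valMinAbs : ℝ)| + |(w.2.valMinAbs : ℝ)|) := by
      have h5 := (abs_le.1 (Real.abs_cos_sub_cos_le (p₁ * w.1.valMinAbs + p₂ * w.2.valMinAbs)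
        (θ₁ * w.1.valMinAbs + θ₂ * w.2.valMinAbs))).2
      refine h5.trans ?_
      have h6 : p₁ * (w.1.valMinAbs : ℝ) + p₂ * w.2.valMinAbs -
          (θ₁ * w.1.valMinAbs + θ₂ * w.2.valMinAbs) =
          -((θ₁ - p₁) * w.1.valMinAbs + (θ₂ - p₂) * w.2.valMinAbs) := by ring
      rw [h6, abs_neg]
      refine (abs_add_le _ _).trans ?_
      rw [abs_mul, abs_mul, mul_add]
      gcongr
    have h7 := mul_le_mul_of_nonneg_right h4 (h.pos w)
    linarith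
  have k4 : tsn r G (fun w => 1 - Real.cos (p₁ * w.1.valMinAbs + p₂ * w.2.valMinAbs)) ≤
      Gh G 0 - TT G p₁ p₂ := by
    rw [Gh_zero]
    unfold TT tsn
    rw [← sum_sub_distrib]
    refine (sum_le_sum_of_subset_of_nonneg (subset_univ _) fun w _ _ => ?_).trans (le_of_eq ?_)
    · exact mul_nonneg (sub_nonneg.2 (Real.cos_le_one _)) (h.pos w)
    · exact sum_congr rfl fun w _ => by ring
  have k5 : TT (cut (r + 1) G G') θ₁ θ₂ - ∑ w, (G' w - cut (r + 1) G G' w) ≤ TT G' θ₁ θ₂ := by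
    unfold TT
    rw [← sum_sub_distrib]
    refine sum_le_sum fun w _ => ?_
    have h5 := Real.neg_one_le_cos (θ₁ * w.1.valMinAbs + θ₂ * w.2.valMinAbs)
    nlinarith [cut_le (N := N) (r := r + 1) (G := G) h.pos' w]
  have k6 := h.rest
  have k7 := h.low
  have k8 := h.sus
  rw [tsn_swap h.swap] at k3
  rw [k2] at k1
  have k9 : d * (tsn r G (fun w => |(w.1.valMinAbs : ℝ)|) +
      tsn r G fun w => |(w.1.valMinAbs : ℝ)|) ≤ d * (2 * C₁ * ξ ^ 3) := by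
    refine mul_le_mul_of_nonneg_left ?_ hd
    linarith
  linarith

/-- `(H2)` on the new torus, truncated first moment -/
theorem Near.h2' {r : ℕ} {ξ e C₁ C2 C2' W : ℝ} {G : ZMod N × ZMod N → ℝ}
    {G' : ZMod M × ZMod M → ℝ} (h : Near (r + 1) ξ e G G') (hξ : 0 < ξ)
    (h6 : tsn r G (fun w => |(w.1.valMinAbs : ℝ)|) ≤ C₁ * ξ ^ 3)
    (hC : 0 < C2) (hC' : 0 ≤ C2') (h2 : H2 C2 W ξ G)
    (hs : (2 * e + 4 * Real.pi * C₁ * (ξ / N)) * (C2 * C2' * (1 + 2 * W ^ 2)) ≤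
      C2' - C2) : H2 C2' W ξ G' := by
  intro k hk1 hk2
  obtain ⟨j1, hj1, hd1⟩ := exists_mode N k.1
  obtain ⟨j2, hj2, hd2⟩ := exists_mode N k.2
  have hN : (0 : ℝ) < (N : ℝ) := by exact_mod_cast NeZero.pos N
  have hg := h2 (j1, j2) (hj1.trans hk1) (hj2.trans hk2)
  simp only at hg
  have hpos := h2.pos hC.le (j1, j2) (hj1.trans hk1) (hj2.trans hk2)
  have q1 : pw j1 ^ 2 ≤ pw k.1 ^ 2 := sq_le_sq.2 hj1
  have q2 : pw j2 ^ 2 ≤ pw k.2 ^ 2 := sq_le_sq.2 hj2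
  have hT := h.mode h6 (by positivity : 0 ≤ 2 * Real.pi / (N : ℝ)) hd1 hd2
  rw [Gh_TT]
  rw [Gh_TT] at hg hpos
  simp only at hg hpos
  set g := TT G (pw j1) (pw j2) with hgdef
  set S := 1 / ξ ^ 2 + pw k.1 ^ 2 + pw k.2 ^ 2 with hS
  have hSpos : 0 < S := by positivity
  have w1 : pw k.1 ^ 2 ≤ W ^ 2 / ξ ^ 2 := by
    rw [← sq_abs, ← div_pow]
    exact pow_le_pow_left₀ (abs_nonneg _) hk1 2
  have w2 : pw k.2 ^ 2 ≤ W ^ 2 / ξ ^ 2 := by
    rw [← sq_abs, ← div_pow]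
    exact pow_le_pow_left₀ (abs_nonneg _) hk2 2
  have hS2 : S * ξ ^ 2 ≤ 1 + 2 * W ^ 2 := by
    have h5 : S ≤ (1 + 2 * W ^ 2) / ξ ^ 2 := by
      rw [hS]
      have : (1 + 2 * W ^ 2) / ξ ^ 2 = 1 / ξ ^ 2 + W ^ 2 / ξ ^ 2 + W ^ 2 / ξ ^ 2 := by ring
      rw [this]
      linarith
    rwa [le_div_iff₀ (by positivity)] at h5
  have hg2 : 1 ≤ C2 * S * g := by
    refine hg.trans ?_
    have : 1 / ξ ^ 2 + pw j1 ^ 2 + pw j2 ^ 2 ≤ S := by rw [hS]; linarith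
    gcongr
  set d := 2 * e + 4 * Real.pi * C₁ * (ξ / N) with hd
  have hT2 : g - d * ξ ^ 2 ≤ TT G' (pw k.1) (pw k.2) := by
    have : d * ξ ^ 2 = 2 * e * ξ ^ 2 + 2 * Real.pi / N * (2 * C₁ * ξ ^ 3) := by
      rw [hd]
      field_simp
      ring
    linarith
  have h10 : C2' * S * (g - d * ξ ^ 2) ≤ C2' * S * TT G' (pw k.1) (pw k.2) :=
    mul_le_mul_of_nonneg_left hT2 (by positivity)
  refine le_trans ?_ h10
  have h11 : C2' ≤ C2' * (C2 * S * g) := by nlinarith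
  have he : 0 ≤ e := by
    have h14 := h.low
    have h15 := h.rest
    have h16 : 0 ≤ ∑ w, (G' w - cut (r + 1) G G' w) :=
      sum_nonneg fun w _ => sub_nonneg.2 (cut_le h.pos' w)
    have h17 : 0 ≤ e * ξ ^ 2 := h16.trans h15
    exact nonneg_of_mul_nonneg_left h17 (by positivity)
  have hC₁ : 0 ≤ C₁ := by
    have h14 : 0 ≤ tsn r G fun w => |(w.1.valMinAbs : ℝ)| :=
      sum_nonneg fun w _ => mul_nonneg (abs_nonneg _) (h.pos w)
    exact nonneg_of_mul_nonneg_left (h14.trans h6) (by positivity)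
  have hd0 : 0 ≤ d := by rw [hd]; positivity
  have h12 : d * (S * ξ ^ 2) * (C2 * C2') ≤ C2' - C2 := by
    refine le_trans ?_ hs
    have : d * (S * ξ ^ 2) * (C2 * C2') ≤ d * (1 + 2 * W ^ 2) * (C2 * C2') := by
      gcongr
    linarith
  have h13 : C2 * 1 ≤ C2 * (C2' * S * (g - d * ξ ^ 2)) := by
    have : C2 * (C2' * S * (g - d * ξ ^ 2)) =
        C2' * (C2 * S * g) - d * (S * ξ ^ 2) * (C2 * C2') := by ring
    rw [this]
    linarith
  exact le_of_mul_le_mul_left h13 hC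

/-! ### the box -/

/-- sites of the open box -/
def bx (n : ℕ) : Finset (ℕ × ℕ) := Ico 1 n ×ˢ Ico 1 n

/-- sup distance of two points of the box -/
def dB (u z : ℕ × ℕ) : ℕ := max ((z.1 : ℤ) - u.1).natAbs ((z.2 : ℤ) - u.2).natAbs

/-- the central block of radius `ξ` of the box of side `n` -/
def b0 (n ξ : ℕ) : Finset (ℕ × ℕ) := (bx n).filter fun u => dB (n / 2, n / 2) u ≤ ξ

/-- the point `p` of the box on the torus -/
def pt (N : ℕ) (p : ℕ × ℕ) : ZMod N × ZMod N := ((p.1 : ZMod N), (p.2 : ZMod N))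

lemma pt_sub (u z : ℕ × ℕ) :
    pt N z - pt N u = ((((z.1 : ℤ) - u.1 : ℤ) : ZMod N), (((z.2 : ℤ) - u.2 : ℤ) : ZMod N)) := by
  unfold pt
  ext <;> simp

lemma sn_pt_sub {r : ℕ} (hN : 2 * (r + 1) ≤ N) {u z : ℕ × ℕ} (h : dB u z ≤ r) :
    sn (pt N z - pt N u) = dB u z := by
  rw [pt_sub]
  unfold sn dB
  unfold dB at h
  rw [max_le_iff] at h
  rw [vma_cast (r := r + 1) hN (by omega), vma_cast (r := r + 1) hN (by omega)]

/-- all the displacements `|w| ≤ r` are seen from a point `u` far from the boundary -/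
lemma sum_disp {r n : ℕ} (hN : 2 * (r + 1) ≤ N) {u : ℕ × ℕ} (h1 : r + 1 ≤ u.1 ∧ u.1 + r < n)
    (h2 : r + 1 ≤ u.2 ∧ u.2 + r < n) (F : ZMod N × ZMod N → ℝ) :
    ∑ z ∈ (bx n).filter (fun z => dB u z ≤ r), F (pt N z - pt N u) =
      ∑ w ∈ univ.filter (fun w : ZMod N × ZMod N => sn w ≤ r), F w := by
  refine sum_bij (fun z _ => pt N z - pt N u) ?_ ?_ ?_ (fun _ _ => rfl)
  · intro z hz
    have hz' := (mem_filter.1 hz).2
    rw [mem_filter, sn_pt_sub hN hz']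
    exact ⟨mem_univ _, hz'⟩
  · intro z hz z' hz' h
    have hd := (mem_filter.1 hz).2
    have hd' := (mem_filter.1 hz').2
    unfold dB at hd hd'
    rw [max_le_iff] at hd hd'
    rw [pt_sub, pt_sub] at h
    have e1 := congrArg (fun w : ZMod N × ZMod N => w.1.valMinAbs) h
    have e2 := congrArg (fun w : ZMod N × ZMod N => w.2.valMinAbs) h
    simp only at e1 e2
    rw [vma_cast (r := r + 1) hN (by omega), vma_cast (r := r + 1) hN (by omega)] at e1 e2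
    exact Prod.ext (by omega) (by omega)
  · intro w hw
    have hw' := (mem_filter.1 hw).2
    unfold sn at hw'
    rw [max_le_iff] at hw'
    refine ⟨(((u.1 : ℤ) + w.1.valMinAbs).toNat, ((u.2 : ℤ) + w.2.valMinAbs).toNat), ?_, ?_⟩
    · rw [mem_filter]
      unfold bx dB
      simp only [mem_product, mem_Ico, max_le_iff]
      omega
    · rw [pt_sub]
      have e1 : (((((u.1 : ℤ) + w.1.valMinAbs).toNat : ℕ) : ℤ) - u.1) = w.1.valMinAbs := by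
        omega
      have e2 : (((((u.2 : ℤ) + w.2.valMinAbs).toNat : ℕ) : ℤ) - u.2) = w.2.valMinAbs := by
        omega
      simp only [e1, e2, ZMod.coe_valMinAbs]

/-- **Volume transfer, kernel side.** -/
theorem trans_near {ξ K : ℕ} (hK : 8 ≤ K) (hξ : 1 ≤ ξ) (hN : K * ξ ≤ N) (hM : K * ξ ≤ M)
    {G : ZMod N × ZMod N → ℝ} {G' : ZMod M × ZMod M → ℝ}
    (pos : ∀ w, 0 ≤ G w) (pos' : ∀ w, 0 ≤ G' w)
    (refl : ∀ w, G (-w.1, w.2) = G w) (refl' : ∀ w, G' (-w.1, w.2) = G' w)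
    (swap : ∀ w, G (w.2, w.1) = G w) (swap' : ∀ w, G' (w.2, w.1) = G' w)
    (A : ℕ × ℕ → ℕ × ℕ → ℝ)
    (hA : ∀ u ∈ bx (K * ξ), ∀ z ∈ bx (K * ξ), A u z ≤ G (pt N z - pt N u))
    (hA' : ∀ u ∈ bx (K * ξ), ∀ z ∈ bx (K * ξ), A u z ≤ G' (pt M z - pt M u))
    {y e1 e2 : ℝ}
    (h1 : ∑ u ∈ b0 (K * ξ) ξ, ∑ z ∈ (bx (K * ξ)).filter (fun z => dB u z ≤ K * ξ / 4),
      (G (pt N z - pt N u) - A u z) ≤ ((b0 (K * ξ) ξ).card : ℝ) * (ξ : ℝ) ^ 2 * e1)
    (h2 : ∑ w ∈ univ.filter (fun w : ZMod N × ZMod N => K * ξ / 4 < sn w), G w ≤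
      (ξ : ℝ) ^ 2 * e2)
    (h3 : (1 - y) * (ξ : ℝ) ^ 2 ≤ ∑ w, G w) (h0 : ∑ w, G w ≤ (ξ : ℝ) ^ 2)
    (h4 : ∑ w, G' w ≤ (ξ : ℝ) ^ 2) :
    Near (K * ξ / 4 + 1) (ξ : ℝ) (y + e1 + e2) G G' := by
  set n := K * ξ with hn
  set R := n / 4 with hR
  have h8 : 8 * ξ ≤ n := Nat.mul_le_mul_right ξ hK
  have hRN : 2 * (R + 1) ≤ N := by omega
  have hRM : 2 * (R + 1) ≤ M := by omega
  refine ⟨hRN, hRM, pos, pos', refl, refl', swap, swap', by rwa [Gh_zero], by rwa [Gh_zero], ?_⟩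
  -- the bound for every `u` of the central block
  have hu : ∀ u ∈ b0 n ξ, (R + 1 ≤ u.1 ∧ u.1 + R < n) ∧ (R + 1 ≤ u.2 ∧ u.2 + R < n) := by
    intro u hu
    have := (mem_filter.1 hu).2
    unfold dB at this
    rw [max_le_iff] at this
    simp only at this
    omega
  have hT : ∑ w ∈ univ.filter (fun w : ZMod N × ZMod N => sn w ≤ R), G w ≥
      (1 - y - e2) * (ξ : ℝ) ^ 2 := by
    have h5 := sum_filter_add_sum_filter_not univ (fun w : ZMod N × ZMod N => sn w ≤ R) G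
    simp only [not_le] at h5
    linarith
  have hcard : 0 < ((b0 n ξ).card : ℝ) := by
    have : (b0 n ξ).Nonempty := by
      refine ⟨(n / 2, n / 2), ?_⟩
      unfold b0 bx dB
      simp only [mem_filter, mem_product, mem_Ico, sub_self, Int.natAbs_zero, max_self]
      omega
    exact_mod_cast this.card_pos
  have hcut : ∀ u ∈ b0 n ξ, ∑ z ∈ (bx n).filter (fun z => dB u z ≤ R), A u z ≤
      ∑ w, cut (R + 1) G G' w := by
    intro u hu'
    have hub : u ∈ bx n := (mem_filter.1 hu').1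
    refine cut_low hRM pos pos' _ u (fun z => A u z) ?_ ?_ ?_
    · intro q hq
      have := (mem_filter.1 hq).2
      unfold dB at this
      rw [max_le_iff] at this
      omega
    · intro q hq
      exact hA u hub q (mem_filter.1 hq).1
    · intro q hq
      exact hA' u hub q (mem_filter.1 hq).1
  have hsum : ∑ u ∈ b0 n ξ, ∑ z ∈ (bx n).filter (fun z => dB u z ≤ R),
      (G (pt N z - pt N u) - A u z) ≥ ((b0 n ξ).card : ℝ) *
        ((1 - y - e2) * (ξ : ℝ) ^ 2 - ∑ w, cut (R + 1) G G' w) := by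
    rw [← nsmul_eq_mul, ← sum_const]
    refine sum_le_sum fun u hu' => ?_
    rw [sum_sub_distrib, sum_disp hRN (hu u hu').1 (hu u hu').2 G]
    have := hcut u hu'
    linarith
  have h6 : ((b0 n ξ).card : ℝ) * ((1 - y - e2) * (ξ : ℝ) ^ 2 - ∑ w, cut (R + 1) G G' w) ≤
      ((b0 n ξ).card : ℝ) * ((ξ : ℝ) ^ 2 * e1) := by
    linarith
  have h7 := le_of_mul_le_mul_left h6 hcard
  linarith

/-- **Volume transfer, kernel side**: (c1), (c2), (c3) of 265 #16436 (3), `e = y + e1 + e2` -/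
theorem trans_kernel {ξ K : ℕ} (hK : 8 ≤ K) (hξ : 1 ≤ ξ) (hN : K * ξ ≤ N) (hM : K * ξ ≤ M)
    {G : ZMod N × ZMod N → ℝ} {G' : ZMod M × ZMod M → ℝ}
    (pos : ∀ w, 0 ≤ G w) (pos' : ∀ w, 0 ≤ G' w)
    (refl : ∀ w, G (-w.1, w.2) = G w) (refl' : ∀ w, G' (-w.1, w.2) = G' w)
    (swap : ∀ w, G (w.2, w.1) = G w) (swap' : ∀ w, G' (w.2, w.1) = G' w)
    (A : ℕ × ℕ → ℕ × ℕ → ℝ)
    (hA : ∀ u ∈ bx (K * ξ), ∀ z ∈ bx (K * ξ), A u z ≤ G (pt N z - pt N u))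
    (hA' : ∀ u ∈ bx (K * ξ), ∀ z ∈ bx (K * ξ), A u z ≤ G' (pt M z - pt M u))
    {y e1 e2 a C₁ : ℝ}
    (h1 : ∑ u ∈ b0 (K * ξ) ξ, ∑ z ∈ (bx (K * ξ)).filter (fun z => dB u z ≤ K * ξ / 4),
      (G (pt N z - pt N u) - A u z) ≤ ((b0 (K * ξ) ξ).card : ℝ) * (ξ : ℝ) ^ 2 * e1)
    (h2 : ∑ w ∈ univ.filter (fun w : ZMod N × ZMod N => K * ξ / 4 < sn w), G w ≤
      (ξ : ℝ) ^ 2 * e2)
    (h3 : (1 - y) * (ξ : ℝ) ^ 2 ≤ ∑ w, G w) (h0 : ∑ w, G w ≤ (ξ : ℝ) ^ 2)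
    (h4 : ∑ w, G' w ≤ (ξ : ℝ) ^ 2)
    (h5 : tsn (K * ξ / 4) G (fun w => (w.1.valMinAbs : ℝ) ^ 2) ≤ 2 * a * (ξ : ℝ) ^ 4)
    (h6 : tsn (K * ξ / 4) G (fun w => |(w.1.valMinAbs : ℝ)|) ≤ C₁ * (ξ : ℝ) ^ 3) :
    (1 - (y + e1 + e2)) * (ξ : ℝ) ^ 2 ≤ ∑ w, G' w ∧ QU (ξ : ℝ) G' (3 * (y + e1 + e2)) a ∧
      ∀ C2 C2' W : ℝ, 0 < C2 → C2 < C2' → H2 C2 W (ξ : ℝ) G →
        (2 * (y + e1 + e2) + 4 * Real.pi * C₁ * ((ξ : ℝ) / N)) * (1 + 2 * W ^ 2) ≤
          1 / C2 - 1 / C2' → H2 C2' W (ξ : ℝ) G' := by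
  have hnear := trans_near hK hξ hN hM pos pos' refl refl' swap swap' A hA hA' h1 h2 h3 h0 h4
  have hξ' : (0 : ℝ) < (ξ : ℝ) := by exact_mod_cast hξ
  refine ⟨?_, hnear.qu' h5, fun C2 C2' W hC hCC hh hs => ?_⟩
  · have := hnear.zero
    rwa [Gh_zero] at this
  · refine hnear.h2' hξ' h6 hC (hC.trans hCC).le hh ?_
    have hC' : 0 < C2' := hC.trans hCC
    have h9 := mul_le_mul_of_nonneg_right hs (mul_pos hC hC').le
    have h10 : (1 / C2 - 1 / C2') * (C2 * C2') = C2' - C2 := by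
      field_simp
    rw [h10] at h9
    linarith

end

end Vale.Agent.P159.TM.H705
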